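import Vale.Agent.P227.Loc.Form

open MeasureTheory Set Metric Filter Topology
open scoped ENNReal

namespace Vale.Agent.P227.Loc

variable {n : ℕ}

theorem log_bound {z : ℝ} (hz : |z| ≤ 1 / 2) : |Real.log (1 + z) - z + z ^ 2 / 2| ≤ 2 * |z| ^ 3 := by
  have h1 : |-z| < 1 := by rw [abs_neg]; linarith
  have h2 := Real.abs_log_sub_add_sum_range_le h1 2
  simp only [Finset.sum_range_succ, Finset.sum_range_zero] at h2
  norm_num at h2
  have e : -z + z ^ 2 / 2 + Real.log (1 + z) = Real.log (1 + z) - z + z ^ 2 / 2 := by ring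
  rw [e] at h2
  refine h2.trans ?_
  rw [div_le_iff₀ (by linarith)]
  have : 0 ≤ |z| ^ 3 := by positivity
  nlinarith

theorem log_tendsto {y : ℝ → ℝ} {a : ℝ} (h : Tendsto (fun t => y t / t) (𝓝[≠] 0) (𝓝 a)) :
    Tendsto (fun t => (Real.log (1 + y t) - y t) / t ^ 2) (𝓝[≠] 0) (𝓝 (-(a ^ 2 / 2))) := by
  have ht : Tendsto (fun t : ℝ => t) (𝓝[≠] 0) (𝓝 0) := tendsto_nhdsWithin_of_tendsto_nhds tendsto_id
  have hR : Tendsto y (𝓝[≠] 0) (𝓝 0) := by
    have h1 := h.mul ht
    rw [mul_zero] at h1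
    refine h1.congr' ?_
    filter_upwards [self_mem_nhdsWithin] with t ht0
    have : t ≠ 0 := ht0
    field_simp
  have hsq : Tendsto (fun t => -((y t / t) ^ 2 / 2)) (𝓝[≠] 0) (𝓝 (-(a ^ 2 / 2))) :=
    ((h.pow 2).div_const 2).neg
  have herr : Tendsto (fun t => (Real.log (1 + y t) - y t) / t ^ 2 - -((y t / t) ^ 2 / 2))
      (𝓝[≠] 0) (𝓝 0) := by
    have hb : Tendsto (fun t => 2 * (|y t| * (y t / t) ^ 2)) (𝓝[≠] 0) (𝓝 0) := by
      have := (hR.abs.mul (h.pow 2)).const_mul 2
      rwa [abs_zero, zero_mul, mul_zero] at this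
    apply squeeze_zero_norm' _ hb
    have hsm : ∀ᶠ t in 𝓝[≠] (0 : ℝ), |y t| < 1 / 2 := by
      have := hR.abs
      rw [abs_zero] at this
      exact this.eventually_lt_const (by norm_num)
    filter_upwards [hsm, self_mem_nhdsWithin] with t ht1 ht0
    have ht0' : t ≠ 0 := ht0
    have h2 := log_bound ht1.le
    have e : (Real.log (1 + y t) - y t) / t ^ 2 - -((y t / t) ^ 2 / 2) =
        (Real.log (1 + y t) - y t + y t ^ 2 / 2) / t ^ 2 := by
      field_simp
      ring
    rw [e, Real.norm_eq_abs, abs_div, abs_of_pos (show 0 < t ^ 2 by positivity),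
      div_le_iff₀ (by positivity)]
    have e2 : 2 * (|y t| * (y t / t) ^ 2) * t ^ 2 = 2 * |y t| ^ 3 := by
      have : |y t| ^ 3 = |y t| * |y t| ^ 2 := by ring
      rw [this, sq_abs]
      field_simp
    rw [e2]
    exact h2
  have := herr.add hsq
  simpa using this

/-- second order expansion of a power -/
theorem rpow_tendsto {y : ℝ → ℝ} {a b l : ℝ}
    (h : Tendsto (fun t => (y t - t * a) / t ^ 2) (𝓝[≠] 0) (𝓝 b)) :
    Tendsto (fun t => ((1 + y t) ^ l - 1 - t * (l * a)) / t ^ 2) (𝓝[≠] 0)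
      (𝓝 (l * b - l * (1 - l) * a ^ 2 / 2)) := by
  have ht : Tendsto (fun t : ℝ => t) (𝓝[≠] 0) (𝓝 0) := tendsto_nhdsWithin_of_tendsto_nhds tendsto_id
  have h1 : Tendsto (fun t => y t / t) (𝓝[≠] 0) (𝓝 a) := by
    have h2 := (h.mul ht).add_const a
    rw [mul_zero, zero_add] at h2
    refine h2.congr' ?_
    filter_upwards [self_mem_nhdsWithin] with t ht0
    have : t ≠ 0 := ht0
    field_simp
    ring
  have hR : Tendsto y (𝓝[≠] 0) (𝓝 0) := by
    have h2 := h1.mul ht
    rw [mul_zero] at h2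
    refine h2.congr' ?_
    filter_upwards [self_mem_nhdsWithin] with t ht0
    have : t ≠ 0 := ht0
    field_simp
  have h2 := log_tendsto h1
  set R : ℝ → ℝ := fun t => l * Real.log (1 + y t) with hRdef
  have h3 : Tendsto (fun t => (R t - t * (l * a)) / t ^ 2) (𝓝[≠] 0)
      (𝓝 (l * (-(a ^ 2 / 2) + b))) := by
    have h4 := (h2.add h).const_mul l
    refine h4.congr fun t => ?_
    simp only [hRdef]
    ring
  have h5 : Tendsto (fun t => R t / t) (𝓝[≠] 0) (𝓝 (l * a)) := by
    have h6 := (h3.mul ht).add_const (l * a)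
    rw [mul_zero, zero_add] at h6
    refine h6.congr' ?_
    filter_upwards [self_mem_nhdsWithin] with t ht0
    have : t ≠ 0 := ht0
    field_simp
    ring
  have h7 := (exp_tendsto h5).add h3
  have e : (l * a) ^ 2 / 2 + l * (-(a ^ 2 / 2) + b) = l * b - l * (1 - l) * a ^ 2 / 2 := by ring
  rw [e] at h7
  refine h7.congr' ?_
  have hsm : ∀ᶠ t in 𝓝[≠] (0 : ℝ), |y t| < 1 / 2 := by
    have := hR.abs
    rw [abs_zero] at this
    exact this.eventually_lt_const (by norm_num)
  filter_upwards [hsm] with t ht1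
  have hpos : 0 < 1 + y t := by
    have := (abs_lt.1 ht1).1
    linarith
  rw [Real.rpow_def_of_pos hpos, ← add_div]
  congr 1
  simp only [hRdef]
  rw [mul_comm (Real.log _) l]
  ring

/-- the exponent of the log-combination -/
noncomputable def ph (K : Set (EV n)) (g : EV n → ℝ) (l t : ℝ) (u : EV n) : ℝ :=
  l * Real.log (1 + t * psi K g u)

theorem psi_smul (K : Set (EV n)) (g : EV n → ℝ) (c : ℝ) :
    psi K (fun u => c * g u) = fun u => c * psi K g u := by
  funext u
  unfold psi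
  ring

theorem fam_ph {K : Set (EV n)} (hK : SymConvexBody K) {g : EV n → ℝ} (hg : Pt g) (l : ℝ) :
    Fam K (fun u => l * g u) (fun u => -(l / 2) * psi K g u ^ 2) (ph K g l) := by
  have hA := psi_adm hK hg
  obtain ⟨P, hP0, hP⟩ := hA.bound
  have hsm : ∀ η : ℝ, 0 < η → ∀ᶠ t in 𝓝 (0 : ℝ), (P + 1) * |t| < η := by
    intro η hη
    have : Tendsto (fun t : ℝ => (P + 1) * |t|) (𝓝 0) (𝓝 ((P + 1) * |(0 : ℝ)|)) := by
      have hc : Continuous (fun t : ℝ => (P + 1) * |t|) := by fun_prop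
      exact hc.tendsto 0
    rw [abs_zero, mul_zero] at this
    exact this.eventually_lt_const hη
  have hz : ∀ t : ℝ, ∀ u : EV n, ‖u‖ = 1 → |t * psi K g u| ≤ (P + 1) * |t| := by
    intro t u hu
    rw [abs_mul, mul_comm]
    apply mul_le_mul_of_nonneg_right _ (abs_nonneg _)
    have := hP u hu
    linarith
  refine ⟨?_, ?_, ?_⟩
  · filter_upwards [hsm (1 / 2) (by norm_num)] with t ht
    refine ⟨?_, ?_, ?_⟩
    · intro u
      unfold ph
      rw [hA.even]
    · unfold ph
      apply continuousOn_const.mul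
      apply ContinuousOn.log
      · exact continuousOn_const.add (continuousOn_const.mul hA.cont)
      · intro u hu
        have hu0 : u ≠ 0 := hu
        have hun : 0 < ‖u‖ := norm_pos_iff.2 hu0
        have h1 : ‖‖u‖⁻¹ • u‖ = 1 := by rw [norm_smul, norm_inv, norm_norm]; field_simp
        have h2 := hz t _ h1
        rw [hA.hom _ (inv_pos.2 hun)] at h2
        have h3 := (abs_le.1 h2).1
        have : 0 < 1 + t * psi K g u := by linarith
        exact this.ne'
    · intro s hs u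
      unfold ph
      rw [hA.hom s hs]
  · refine ⟨?_, ?_, ?_⟩
    · intro u
      rw [hA.even]
    · exact continuousOn_const.mul (hA.cont.pow 2)
    · intro s hs u
      rw [hA.hom s hs]
  · intro ε hε
    have hη : 0 < ε / (2 * (|l| + 1) * (P + 1) ^ 2) := by positivity
    filter_upwards [hsm (1 / 2) (by norm_num), hsm _ hη] with t ht1 ht2
    intro u hu
    have h1 := hz t u hu
    set z := t * psi K g u with hzd
    have h2 := log_bound (z := z) (by linarith)
    have e : ph K g l t u - t * psi K (fun u => l * g u) u - t ^ 2 * (-(l / 2) * psi K g u ^ 2) =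
        l * (Real.log (1 + z) - z + z ^ 2 / 2) := by
      unfold ph
      rw [psi_smul, hzd]
      ring
    rw [e, abs_mul]
    have h3 : |z| ^ 3 ≤ (P + 1) ^ 2 * t ^ 2 * ((P + 1) * |t|) := by
      calc |z| ^ 3 ≤ ((P + 1) * |t|) ^ 3 := pow_le_pow_left₀ (abs_nonneg _) h1 3
        _ = (P + 1) ^ 2 * |t| ^ 2 * ((P + 1) * |t|) := by ring
        _ = _ := by rw [sq_abs]
    have h4 : (P + 1) * |t| * (2 * (|l| + 1) * (P + 1) ^ 2) ≤ ε := by
      rw [lt_div_iff₀ (by positivity)] at ht2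
      exact ht2.le
    have hl := abs_nonneg l
    calc |l| * |Real.log (1 + z) - z + z ^ 2 / 2| ≤ (|l| + 1) * (2 * |z| ^ 3) :=
          mul_le_mul (by linarith) h2 (abs_nonneg _) (by positivity)
      _ ≤ (|l| + 1) * (2 * ((P + 1) ^ 2 * t ^ 2 * ((P + 1) * |t|))) := by
          apply mul_le_mul_of_nonneg_left _ (by positivity)
          linarith
      _ = ((P + 1) * |t| * (2 * (|l| + 1) * (P + 1) ^ 2)) * t ^ 2 := by ring
      _ ≤ ε * t ^ 2 := mul_le_mul_of_nonneg_right h4 (sq_nonneg _)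

theorem wulff_congr {f f' : EV n → ℝ} (h : ∀ u : EV n, ‖u‖ = 1 → f u = f' u) :
    wulff f = wulff f' := by
  ext x
  constructor
  · intro hx u hu
    rw [← h u hu]; exact hx u hu
  · intro hx u hu
    rw [h u hu]; exact hx u hu

/-- identification of the log-combination and of the perturbed body -/
theorem logComb_eq {K : Set (EV n)} (hK : SymConvexBody K) (hC : C2Plus K) {g : EV n → ℝ}
    (hg : Pt g) : ∀ᶠ t in 𝓝 (0 : ℝ),
      SymConvexBody (wulff (fun u => supportFn K u + t * g u)) ∧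
      wulff (fun u => supportFn K u + t * g u) = wexp K (ph K g 1 t) ∧
      ∀ l : ℝ, logComb l K (wulff (fun u => supportFn K u + t * g u)) = wexp K (ph K g l t) := by
  have hA := psi_adm hK hg
  obtain ⟨P, hP0, hP⟩ := hA.bound
  have hsm : ∀ᶠ t in 𝓝 (0 : ℝ), (P + 1) * |t| < 1 / 2 := by
    have : Tendsto (fun t : ℝ => (P + 1) * |t|) (𝓝 0) (𝓝 ((P + 1) * |(0 : ℝ)|)) := by
      have hc : Continuous (fun t : ℝ => (P + 1) * |t|) := by fun_prop
      exact hc.tendsto 0
    rw [abs_zero, mul_zero] at this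
    exact this.eventually_lt_const (by norm_num)
  filter_upwards [hsm, supportFn_pert hK hC hg.hom1 hg.even] with t ht1 ht2
  obtain ⟨hW, hs⟩ := ht2
  have hpos : ∀ u : EV n, ‖u‖ = 1 → 0 < 1 + t * psi K g u := by
    intro u hu
    have h1 : |t * psi K g u| ≤ (P + 1) * |t| := by
      rw [abs_mul, mul_comm]
      apply mul_le_mul_of_nonneg_right _ (abs_nonneg _)
      have := hP u hu
      linarith
    have := (abs_le.1 h1).1
    linarith
  have hfac : ∀ u : EV n, ‖u‖ = 1 → supportFn K u + t * g u =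
      supportFn K u * (1 + t * psi K g u) := by
    intro u hu
    have := hK.supportFn_pos (ne0 hu)
    unfold psi
    field_simp
  refine ⟨hW, ?_, fun l => ?_⟩
  · unfold wexp
    apply wulff_congr
    intro u hu
    unfold ph
    rw [hfac u hu, one_mul, Real.exp_log (hpos u hu)]
  · unfold wexp logComb
    apply wulff_congr
    intro u hu
    have hKu := hK.supportFn_pos (ne0 hu)
    unfold ph
    rw [hs u hu, hfac u hu, Real.mul_rpow hKu.le (hpos u hu).le, ← mul_assoc,
      ← Real.rpow_add hKu, sub_add_cancel, Real.rpow_one, Real.rpow_def_of_pos (hpos u hu)]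
    rw [mul_comm (Real.log _) l]

theorem V1_smul (K : Set (EV n)) (ν : EV n → EV n) (g : EV n → ℝ) (c : ℝ) :
    V1 K ν (fun u => c * g u) = c * V1 K ν g := by
  unfold V1
  rw [psi_smul, integral_const_mul]
  ring

theorem V2_smul {K : Set (EV n)} (hK : SymConvexBody K) (hC : C2Plus K)
    (S : EV n → ((EV n →L[ℝ] ℝ) →ₗ[ℝ] EV n)) {ν : EV n → EV n}
    (hν : IsConeNormal K ν) {g : EV n → ℝ} (hg : Pt g) (c : ℝ) :
    V2 K S ν (fun u => c * g u) = c ^ 2 * V2 K S ν g := by
  have haeν : ∀ᵐ x ∂(volume.restrict (interior K)), ‖ν x‖ = 1 ∧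
      inner ℝ x (ν x) = gauge K x * supportFn K (ν x) :=
    ae_restrict_of_ae_restrict_of_subset interior_subset hν.2
  have e1 : IP K ν (fun u => c * g u) = c ^ 2 * IP K ν g := by
    unfold IP
    rw [← integral_const_mul]
    congr 1
    funext x
    rw [psi_smul]
    ring
  have e2 : IQ K S ν (fun u => c * g u) = c ^ 2 * IQ K S ν g := by
    unfold IQ
    rw [← integral_const_mul]
    apply integral_congr_ae
    filter_upwards [haeν] with x hνx
    have hν0 := ne0 hνx.1
    have d1 := (psi_diff hK hC hg hν0).differentiableAt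
    have f1 : fderiv ℝ (psi K fun u => c * g u) (ν x) = c • fderiv ℝ (psi K g) (ν x) := by
      rw [psi_smul]
      exact fderiv_const_mul d1 c
    simp only [qf]
    rw [f1]
    simp only [map_smul, smul_apply, smul_eq_mul]
    ring
  unfold V2
  rw [e1, e2]
  ring

/-- **Second order comparison**: the limit of the difference in the log-Brunn-Minkowski
inequality. -/
theorem local_limit (hn : 0 < n) {K : Set (EV n)} (hK : SymConvexBody K) (hC : C2Plus K)
    {S : EV n → ((EV n →L[ℝ] ℝ) →ₗ[ℝ] EV n)} (hS : IsDual K S) {ν : EV n → EV n}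
    (hν : IsConeNormal K ν) {g : EV n → ℝ} (hg : Pt g) (l : ℝ) :
    Tendsto (fun t => (evol (logComb l K (wulff (fun u => supportFn K u + t * g u))) -
        evol K ^ (1 - l) * evol (wulff (fun u => supportFn K u + t * g u)) ^ l) / t ^ 2)
      (𝓝[≠] 0) (𝓝 (l * (1 - l) * (QQ K S ν g / (2 * evol K)))) := by
  have hV0 := evol_pos hK
  set V₀ := evol K with hV₀
  have A := vol_exp2 hn hK hC hS hν (hg.smul l) (fam_ph hK hg l)
  have B := vol_exp2 hn hK hC hS hν (hg.smul 1) (fam_ph hK hg 1)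
  rw [V1_smul, V2_smul hK hC S hν hg] at A B
  rw [integral_const_mul] at A B
  change Tendsto _ _ (𝓝 (n * (-(l / 2) * IP K ν g) + l ^ 2 * V2 K S ν g)) at A
  change Tendsto _ _ (𝓝 (n * (-(1 / 2) * IP K ν g) + 1 ^ 2 * V2 K S ν g)) at B
  -- normalised volume of the perturbed body
  set y : ℝ → ℝ := fun t => Vol K (ph K g 1 t) / V₀ - 1 with hy
  have hy1 : Tendsto (fun t => (y t - t * (V1 K ν g / V₀)) / t ^ 2) (𝓝[≠] 0)
      (𝓝 ((n * (-(1 / 2) * IP K ν g) + 1 ^ 2 * V2 K S ν g) / V₀)) := by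
    have := B.div_const V₀
    refine this.congr fun t => ?_
    simp only [hy]
    field_simp
    ring
  have C := rpow_tendsto (l := l) hy1
  have D := A.sub (C.const_mul V₀)
  have e : n * (-(l / 2) * IP K ν g) + l ^ 2 * V2 K S ν g -
      V₀ * (l * ((n * (-(1 / 2) * IP K ν g) + 1 ^ 2 * V2 K S ν g) / V₀) -
        l * (1 - l) * (V1 K ν g / V₀) ^ 2 / 2) = l * (1 - l) * (QQ K S ν g / (2 * V₀)) := by
    unfold QQ
    rw [← hV₀]
    field_simp
    ring
  rw [e] at D
  refine D.congr' ?_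
  filter_upwards [(logComb_eq hK hC hg).filter_mono (nhdsWithin_le_nhds (s := {(0 : ℝ)}ᶜ))]
    with t ht
  obtain ⟨hW, h1, h2⟩ := ht
  have h3 := evol_pos hW
  rw [h2 l]
  rw [h1] at h3 ⊢
  change 0 < Vol K (ph K g 1 t) at h3
  have h4 : 1 + y t = Vol K (ph K g 1 t) / V₀ := by simp only [hy]; ring
  have h5 : V₀ * (1 + y t) ^ l = V₀ ^ (1 - l) * Vol K (ph K g 1 t) ^ l := by
    rw [h4, Real.div_rpow h3.le hV0.le, Real.rpow_sub hV0, Real.rpow_one]
    have : V₀ ^ l ≠ 0 := (Real.rpow_pos_of_pos hV0 l).ne'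
    field_simp
  change _ = (Vol K (ph K g l t) - V₀ ^ (1 - l) * Vol K (ph K g 1 t) ^ l) / t ^ 2
  rw [← h5]
  have h6 : V₀ * (V1 K ν g / V₀) = V1 K ν g := by field_simp
  have h7 : V₀ * (((1 + y t) ^ l - 1 - t * (l * (V1 K ν g / V₀))) / t ^ 2) =
      (V₀ * (1 + y t) ^ l - V₀ - t * (l * (V₀ * (V1 K ν g / V₀)))) / t ^ 2 := by ring
  rw [h7, h6]
  ring

end Vale.Agent.P227.Loc
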