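import Vale.Agent.P227.Loc.Geo2
import Vale.Agent.P227.Loc.LogComb

open MeasureTheory Set Metric Filter Topology
open scoped ENNReal

namespace Vale.Agent.P227.Loc

variable {n : ℕ}

theorem Adm.toBd {φ : EV n → ℝ} (hφ : Adm φ) : Bd φ where
  bd := by
    obtain ⟨B, _, hB⟩ := hφ.bound
    exact ⟨B, hB⟩
  hom := hφ.hom

/-- composition with a reflection -/
theorem Pt.comp {g : EV n → ℝ} (hg : Pt g) {v w : EV n} (hvw : inner ℝ v w = (1 : ℝ)) :
    Pt (fun u => g (rfl' w v u)) where
  hom1 :=
    { hom := by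
        intro s hs x
        rw [rfl'_smul, hg.hom1.hom s hs]
      smooth := by
        have hwv : inner ℝ w v = (1 : ℝ) := by rw [real_inner_comm]; exact hvw
        have h1 : ContDiffOn ℝ 2 (rfl' w v) {0}ᶜ := by
          have : ContDiff ℝ 2 (rfl' w v) := by
            unfold rfl'
            exact contDiff_id.sub ((contDiff_const.mul
              (contDiff_id.inner ℝ contDiff_const)).smul contDiff_const)
          exact this.contDiffOn
        refine hg.hom1.smooth.comp h1 ?_
        intro u hu h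
        apply hu
        have h0 : rfl' w v u = 0 := h
        have h2 := rfl'_rfl' hwv u
        rw [h0] at h2
        rw [mem_singleton_iff, ← h2]
        unfold rfl'
        simp }
  even := by
    intro u
    rw [rfl'_neg, hg.even]

theorem psi_comp {K : Set (EV n)} (hK : SymConvexBody K) {v w : EV n}
    (hvw : inner ℝ v w = (1 : ℝ)) (hR : ∀ x ∈ K, rfl' v w x ∈ K) (g : EV n → ℝ) (u : EV n) :
    psi K (fun u => g (rfl' w v u)) u = psi K g (rfl' w v u) := by
  unfold psi
  rw [supportFn_rfl' hK hvw hR]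

theorem QQ_comp (hn : 0 < n) {K : Set (EV n)} (hK : SymConvexBody K) (hC : C2Plus K)
    {S : EV n → ((EV n →L[ℝ] ℝ) →ₗ[ℝ] EV n)} (hS : IsDual K S) {ν : EV n → EV n}
    (hν : IsConeNormal K ν) {v w : EV n} (hvw : inner ℝ v w = (1 : ℝ))
    (hR : ∀ x ∈ K, rfl' v w x ∈ K) {g : EV n → ℝ} (hg : Pt g) :
    QQ K S ν (fun u => g (rfl' w v u)) = QQ K S ν g := by
  apply QQ_congr hn hK hC hS hν (hg.comp hvw) hg
  intro t
  have h1 : (fun u => t * psi K (fun u => g (rfl' w v u)) u) =
      fun u => (fun u => t * psi K g u) (rfl' w v u) := by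
    funext u
    simp only [psi_comp hK hvw hR]
  have hb := (adm_smul (psi_adm hK hg) t).toBd
  have hb' := (adm_smul (psi_adm hK (hg.comp hvw)) t).toBd
  rw [h1] at hb'
  have h2 := wexp_comp hK hvw hR hb hb'
  unfold Vol evol
  rw [h1, h2, volume_rfl' hvw]

/-- splitting of the form with respect to a reflection -/
theorem QQ_split (hn : 0 < n) {K : Set (EV n)} (hK : SymConvexBody K) (hC : C2Plus K)
    {S : EV n → ((EV n →L[ℝ] ℝ) →ₗ[ℝ] EV n)} (hS : IsDual K S) {ν : EV n → EV n}
    (hν : IsConeNormal K ν) {v w : EV n} (hvw : inner ℝ v w = (1 : ℝ))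
    (hR : ∀ x ∈ K, rfl' v w x ∈ K) {g : EV n → ℝ} (hg : Pt g) :
    QQ K S ν g = QQ K S ν (fun u => 1 / 2 * (g u + g (rfl' w v u))) +
      QQ K S ν (fun u => 1 / 2 * (g u - g (rfl' w v u))) := by
  have hp : Pt (fun u => 1 / 2 * (g u + g (rfl' w v u))) := (hg.add (hg.comp hvw)).smul (1 / 2)
  have hm : Pt (fun u => 1 / 2 * (g u - g (rfl' w v u))) := (hg.sub (hg.comp hvw)).smul (1 / 2)
  have h1 := QQ_parallelogram hn hK hC hS hν hp hm
  have e1 : (fun u => 1 / 2 * (g u + g (rfl' w v u)) + 1 / 2 * (g u - g (rfl' w v u))) = g := by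
    funext u; ring
  have e2 : (fun u => 1 / 2 * (g u + g (rfl' w v u)) - 1 / 2 * (g u - g (rfl' w v u))) =
      fun u => g (rfl' w v u) := by
    funext u; ring
  rw [e1, e2, QQ_comp hn hK hC hS hν hvw hR hg] at h1
  linarith

/-- the composition of all reflections is the antipodal map -/
theorem all_refl {v w : Fin n → EV n}
    (hvw : ∀ i j, inner ℝ (v i) (w j) = if i = j then (1 : ℝ) else 0) (u : EV n) :
    ∑ i, inner ℝ (v i) u • w i = u := by
  have hli : LinearIndependent ℝ w := by
    rw [Fintype.linearIndependent_iff]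
    intro c hc j
    have h1 := congrArg (fun x => inner ℝ (v j) x) hc
    simp only [inner_sum, inner_smul_right, hvw, inner_zero_right] at h1
    simpa using h1
  by_cases hn : Nonempty (Fin n)
  · set b := basisOfLinearIndependentOfCardEqFinrank hli
      (by rw [finrank_euclideanSpace_fin, Fintype.card_fin]) with hb
    have hbw : ∀ i, b i = w i := by
      intro i
      rw [hb, coe_basisOfLinearIndependentOfCardEqFinrank]
    have h1 := b.sum_repr u
    have h2 : ∀ i, inner ℝ (v i) u = b.repr u i := by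
      intro i
      conv_lhs => rw [← h1]
      rw [inner_sum]
      simp only [inner_smul_right, hbw, hvw]
      simp
    conv_rhs => rw [← h1]
    apply Finset.sum_congr rfl
    intro i _
    rw [h2, hbw]
  · have hn0 : n = 0 := by
      by_contra h
      exact hn ⟨⟨0, Nat.pos_of_ne_zero h⟩⟩
    subst hn0
    exact Subsingleton.elim _ _

theorem pure_neg {v w : Fin n → EV n}
    (hvw : ∀ i j, inner ℝ (v i) (w j) = if i = j then (1 : ℝ) else 0) {g : EV n → ℝ}
    (A : Finset (Fin n)) (hodd : ∀ i ∈ A, ∀ u, g (rfl' (w i) (v i) u) = -g u)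
    (hev : ∀ i ∉ A, ∀ u, g (rfl' (w i) (v i) u) = g u) (u : EV n) :
    g (-u) = (-1) ^ A.card * g u := by
  have key : ∀ B : Finset (Fin n), ∀ u : EV n,
      g (u - ∑ i ∈ B, (2 * inner ℝ (v i) u) • w i) = (-1) ^ (B ∩ A).card * g u := by
    intro B
    induction B using Finset.induction_on with
    | empty => intro u; simp
    | insert a B ha ih =>
      intro u
      set u' : EV n := u - ∑ i ∈ B, (2 * inner ℝ (v i) u) • w i with hu'
      have h1 : inner ℝ u' (v a) = inner ℝ (v a) u := by
        rw [hu', inner_sub_left, sum_inner]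
        have : ∑ i ∈ B, inner ℝ ((2 * inner ℝ (v i) u) • w i) (v a) = (0 : ℝ) := by
          apply Finset.sum_eq_zero
          intro i hi
          have hne : a ≠ i := fun h => ha (h ▸ hi)
          rw [real_inner_smul_left, real_inner_comm (v a) (w i), hvw, if_neg hne, mul_zero]
        rw [this, sub_zero, real_inner_comm]
      have h2 : u - ∑ i ∈ insert a B, (2 * inner ℝ (v i) u) • w i = rfl' (w a) (v a) u' := by
        rw [Finset.sum_insert ha]
        unfold rfl'
        rw [h1, hu']
        abel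
      rw [h2]
      by_cases haA : a ∈ A
      · rw [hodd a haA, ih u, Finset.insert_inter_of_mem haA,
          Finset.card_insert_of_notMem (fun h => ha (Finset.mem_inter.1 h).1), pow_succ]
        ring
      · rw [hev a haA, ih u, Finset.insert_inter_of_notMem haA]
  have h3 := key Finset.univ u
  have h4 : u - ∑ i, (2 * inner ℝ (v i) u) • w i = -u := by
    have h5 : ∑ i, (2 * inner ℝ (v i) u) • w i = (2 : ℝ) • u := by
      conv_rhs => rw [← all_refl hvw u, Finset.smul_sum]
      apply Finset.sum_congr rfl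
      intro i _
      rw [smul_smul]
    rw [h5, two_smul]
    abel
  rw [h4, Finset.univ_inter] at h3
  exact h3

theorem wexp_zero {K : Set (EV n)} (hK : SymConvexBody K) : wexp K (fun _ => 0) = K := by
  unfold wexp
  simp only [Real.exp_zero, mul_one]
  exact hK.wulff_supportFn

/-- nonnegativity on pure types -/
theorem QQ_pure {m : ℕ} {K : Set (EV (m + 2))} (hK : SymConvexBody K) (hC : C2Plus K)
    {S : EV (m + 2) → ((EV (m + 2) →L[ℝ] ℝ) →ₗ[ℝ] EV (m + 2))} (hS : IsDual K S)
    {ν : EV (m + 2) → EV (m + 2)} (hν : IsConeNormal K ν) (v w : Fin (m + 2) → EV (m + 2))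
    (hvw : ∀ i j, inner ℝ (v i) (w j) = if i = j then (1 : ℝ) else 0)
    (hR : ∀ i, ∀ x ∈ K, rfl' (v i) (w i) x ∈ K) {g : EV (m + 2) → ℝ} (hg : Pt g)
    (A : Finset (Fin (m + 2))) (hodd : ∀ i ∈ A, ∀ u, g (rfl' (w i) (v i) u) = -g u)
    (hev : ∀ i ∉ A, ∀ u, g (rfl' (w i) (v i) u) = g u) : 0 ≤ QQ K S ν g := by
  have hii : ∀ i, inner ℝ (v i) (w i) = (1 : ℝ) := by intro i; rw [hvw]; simp
  apply QQ_nonneg_of_mul (by omega) hK hC hS hν hg
  intro t
  set φ : EV (m + 2) → ℝ := fun u => t * psi K g u with hφ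
  have hneg : (fun u => -t * psi K g u) = fun u => -φ u := by
    funext u; simp only [hφ]; ring
  rw [hneg]
  have hA : Adm φ := adm_smul (psi_adm hK hg) t
  have hfin : volume K ≠ ∞ := hK.isCompact.measure_lt_top.ne
  have hφodd : ∀ i ∈ A, ∀ u, φ (rfl' (w i) (v i) u) = -φ u := by
    intro i hi u
    simp only [hφ]
    rw [← psi_comp hK (hii i) (hR i)]
    unfold psi
    beta_reduce
    rw [hodd i hi]
    ring
  have hφev : ∀ i ∉ A, ∀ u, φ (rfl' (w i) (v i) u) = φ u := by
    intro i hi u
    simp only [hφ]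
    rw [← psi_comp hK (hii i) (hR i)]
    unfold psi
    beta_reduce
    rw [hev i hi]
  have conv : volume (wexp K φ) * volume (wexp K (fun u => -φ u)) ≤ volume K ^ 2 →
      Vol K φ * Vol K (fun u => -φ u) ≤ evol K ^ 2 := by
    intro h
    unfold Vol evol
    rw [← ENNReal.toReal_mul, ← ENNReal.toReal_pow]
    exact ENNReal.toReal_mono (ENNReal.pow_ne_top hfin) h
  apply conv
  rcases Nat.even_or_odd A.card with he | ho
  · obtain ⟨k, hk⟩ := he
    rcases Nat.eq_zero_or_pos k with h0 | hpos
    · have hA0 : A = ∅ := by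
        rw [← Finset.card_eq_zero, hk, h0]
      apply prod_ineq hK v w hvw hR (Fin.castLEEmb (by omega)) hA.toBd hA.even
      intro j u
      exact hφev _ (by rw [hA0]; simp) u
    · obtain ⟨k', rfl⟩ : ∃ k', k = k' + 1 := ⟨k - 1, by omega⟩
      have h1 := type_ineq hK v w hvw hR k' A (by omega) φ hA.toBd hA.even hφodd hφev
      have h2 := type_ineq hK v w hvw hR k' A (by omega) (fun u => -φ u) hA.toBd.neg
        (fun u => by rw [hA.even]) (fun i hi u => by rw [hφodd i hi])
        (fun i hi u => by rw [hφev i hi])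
      rw [sq]
      exact mul_le_mul' h1 h2
  · -- odd type: the function vanishes
    have hz : ∀ u, φ u = 0 := by
      intro u
      have h1 := pure_neg hvw A hφodd hφev u
      rw [hA.even, ho.neg_one_pow] at h1
      linarith
    have e1 : φ = fun _ => 0 := by funext u; exact hz u
    have e2 : (fun u => -φ u) = fun _ => 0 := by funext u; rw [hz u, neg_zero]
    rw [e2, e1, wexp_zero hK, sq]

/-- nonnegativity of the form for an unconditional body -/
theorem QQ_nonneg {m : ℕ} {K : Set (EV (m + 2))} (hK : SymConvexBody K) (hC : C2Plus K)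
    {S : EV (m + 2) → ((EV (m + 2) →L[ℝ] ℝ) →ₗ[ℝ] EV (m + 2))} (hS : IsDual K S)
    {ν : EV (m + 2) → EV (m + 2)} (hν : IsConeNormal K ν) (v w : Fin (m + 2) → EV (m + 2))
    (hvw : ∀ i j, inner ℝ (v i) (w j) = if i = j then (1 : ℝ) else 0)
    (hR : ∀ i, ∀ x ∈ K, rfl' (v i) (w i) x ∈ K) (U : Finset (Fin (m + 2))) :
    ∀ (A : Finset (Fin (m + 2))), A ⊆ Uᶜ → ∀ {g : EV (m + 2) → ℝ}, Pt g →
      (∀ i ∈ A, ∀ u, g (rfl' (w i) (v i) u) = -g u) →
      (∀ i ∈ Uᶜ \ A, ∀ u, g (rfl' (w i) (v i) u) = g u) → 0 ≤ QQ K S ν g := by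
  have hii : ∀ i, inner ℝ (v i) (w i) = (1 : ℝ) := by intro i; rw [hvw]; simp
  -- commutation of the reflections
  have hcomm : ∀ i j, ∀ u : EV (m + 2), rfl' (w i) (v i) (rfl' (w j) (v j) u) =
      rfl' (w j) (v j) (rfl' (w i) (v i) u) := by
    intro i j u
    by_cases hij : i = j
    · subst hij; rfl
    · have e1 : inner ℝ (w i) (v j) = (0 : ℝ) := by
        rw [real_inner_comm, hvw, if_neg (Ne.symm hij)]
      have e2 : inner ℝ (w j) (v i) = (0 : ℝ) := by
        rw [real_inner_comm, hvw, if_neg hij]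
      unfold rfl'
      rw [inner_sub_left, inner_sub_left, real_inner_smul_left, real_inner_smul_left, e1, e2,
        mul_zero, mul_zero, sub_zero, sub_zero]
      abel
  induction U using Finset.induction_on with
  | empty =>
    intro A _ g hg hodd hev
    apply QQ_pure hK hC hS hν v w hvw hR hg A hodd
    intro i hi
    exact hev i (by simp [hi])
  | insert a U ha ih =>
    intro A hA g hg hodd hev
    have haA : a ∉ A := by
      intro h
      have := Finset.mem_compl.1 (hA h)
      exact this (Finset.mem_insert_self a U)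
    have hsub : A ⊆ Uᶜ := by
      intro i hi
      rw [Finset.mem_compl]
      intro h
      exact Finset.mem_compl.1 (hA hi) (Finset.mem_insert_of_mem h)
    have hwv : inner ℝ (w a) (v a) = (1 : ℝ) := by rw [real_inner_comm]; exact hii a
    rw [QQ_split (by omega) hK hC hS hν (hii a) (hR a) hg]
    have hp : Pt (fun u => 1 / 2 * (g u + g (rfl' (w a) (v a) u))) :=
      (hg.add (hg.comp (hii a))).smul (1 / 2)
    have hm : Pt (fun u => 1 / 2 * (g u - g (rfl' (w a) (v a) u))) :=
      (hg.sub (hg.comp (hii a))).smul (1 / 2)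
    apply add_nonneg
    · apply ih A hsub hp
      · intro i hi u
        rw [hodd i hi, hcomm, hodd i hi]
        ring
      · intro i hi u
        by_cases hia : i = a
        · subst hia
          rw [rfl'_rfl' hwv]
          ring
        · have hi' : i ∈ (insert a U)ᶜ \ A := by
            rw [Finset.mem_sdiff, Finset.mem_compl] at hi ⊢
            refine ⟨?_, hi.2⟩
            rw [Finset.mem_insert]
            push Not
            exact ⟨hia, hi.1⟩
          rw [hev i hi', hcomm, hev i hi']
    · apply ih (insert a A) _ hm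
      · intro i hi u
        rw [Finset.mem_insert] at hi
        rcases hi with rfl | hi
        · rw [rfl'_rfl' hwv]
          ring
        · rw [hodd i hi, hcomm, hodd i hi]
          ring
      · intro i hi u
        rw [Finset.mem_sdiff, Finset.mem_compl, Finset.mem_insert] at hi
        obtain ⟨h1, h2⟩ := hi
        push Not at h2
        have hi' : i ∈ (insert a U)ᶜ \ A := by
          rw [Finset.mem_sdiff, Finset.mem_compl, Finset.mem_insert]
          push Not
          exact ⟨⟨h2.1, h1⟩, h2.2⟩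
        rw [hev i hi', hcomm, hev i hi']
      · intro i hi
        rw [Finset.mem_insert] at hi
        rcases hi with rfl | hi
        · exact Finset.mem_compl.2 ha
        · exact hsub hi

/-- homogeneous extension of a function on the sphere -/
noncomputable def hext (g : EV n → ℝ) (u : EV n) : ℝ := ‖u‖ * g (‖u‖⁻¹ • u)

theorem hext_pt {g : EV n → ℝ} (hg : ContDiffOn ℝ 2 g {0}ᶜ) (heven : ∀ u, g (-u) = g u) :
    Pt (hext g) where
  hom1 :=
    { hom := by
        intro s hs x
        unfold hext
        rw [norm_smul, Real.norm_of_nonneg hs.le, smul_smul, mul_assoc]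
        congr 3
        rw [mul_inv, mul_assoc, mul_comm ‖x‖⁻¹ s, ← mul_assoc, inv_mul_cancel₀ hs.ne', one_mul]
      smooth := by
        intro u hu
        have hu0 : u ≠ 0 := hu
        have h1 : ContDiffAt ℝ 2 (fun u : EV n => ‖u‖) u := contDiffAt_norm ℝ hu0
        have h2 : ContDiffAt ℝ 2 (fun u : EV n => ‖u‖⁻¹ • u) u :=
          (h1.inv (norm_ne_zero_iff.2 hu0)).smul contDiffAt_id
        have hne : ‖u‖⁻¹ • u ≠ 0 := smul_ne_zero (inv_ne_zero (norm_ne_zero_iff.2 hu0)) hu0
        have h3 : ContDiffAt ℝ 2 g (‖u‖⁻¹ • u) :=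
          hg.contDiffAt (isOpen_compl_singleton.mem_nhds hne)
        exact (h1.mul (ContDiffAt.comp (g := g) (f := fun u : EV n => ‖u‖⁻¹ • u) u h3
          h2)).contDiffWithinAt }
  even := by
    intro u
    unfold hext
    rw [norm_neg, smul_neg, heven]

theorem hext_unit (g : EV n → ℝ) {u : EV n} (hu : ‖u‖ = 1) : hext g u = g u := by
  unfold hext
  rw [hu, inv_one, one_smul, one_mul]

/-- **Local log-Brunn-Minkowski inequality at unconditional bodies of class `C²₊`.** -/
theorem local_log_bm {m : ℕ} {K : Set (EV (m + 2))} (hK : SymConvexBody K) (hC : C2Plus K)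
    (v w : Fin (m + 2) → EV (m + 2))
    (hvw : ∀ i j, inner ℝ (v i) (w j) = if i = j then (1 : ℝ) else 0)
    (hR : ∀ i, ∀ x ∈ K, x - (2 * inner ℝ x (w i)) • v i ∈ K) {g : EV (m + 2) → ℝ}
    (hg : ContDiffOn ℝ 2 g {0}ᶜ) (heven : ∀ u, g (-u) = g u) :
    ∃ c : ℝ, 0 ≤ c ∧ ∀ l : ℝ,
      Tendsto (fun t => (evol (logComb l K (wulff (fun u => supportFn K u + t * g u))) -
        evol K ^ (1 - l) * evol (wulff (fun u => supportFn K u + t * g u)) ^ l) / t ^ 2)
      (𝓝[≠] 0) (𝓝 (l * (1 - l) * c)) := by
  obtain ⟨S, hS⟩ := exists_dual hK hC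
  obtain ⟨ν, hν⟩ := exists_measurable_normal (by omega) hK
  have hpt := hext_pt hg heven
  have hQ : 0 ≤ QQ K S ν (hext g) :=
    QQ_nonneg hK hC hS hν v w hvw hR Finset.univ ∅ (by simp) hpt (by simp) (by simp)
  refine ⟨QQ K S ν (hext g) / (2 * evol K), ?_, fun l => ?_⟩
  · have := evol_pos hK
    positivity
  · have h := local_limit (by omega) hK hC hS hν hpt l
    have e : ∀ t : ℝ, wulff (fun u => supportFn K u + t * hext g u) =
        wulff (fun u => supportFn K u + t * g u) := by
      intro t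
      apply wulff_congr
      intro u hu
      rw [hext_unit g hu]
    simp only [e] at h
    exact h

end Vale.Agent.P227.Loc
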