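import Vale.Agent.P227.ZonoidDefs

open MeasureTheory

namespace Vale.Agent.P227.Loc

/-- Twice continuously differentiable away from the origin. -/
def SmoothTwo {n : ℕ} (f : EuclideanSpace ℝ (Fin n) → ℝ) : Prop := ContDiffOn ℝ 2 f {0}ᶜ

/-- Euclidean inner product. -/
noncomputable def ip {n : ℕ} (x y : EuclideanSpace ℝ (Fin n)) : ℝ := inner ℝ x y

/-- Second derivative of `f` at `u` in direction `v`, `d²/ds² f (u + s v)` at `s = 0`. -/
noncomputable def hess {n : ℕ} (f : EuclideanSpace ℝ (Fin n) → ℝ)
    (u v : EuclideanSpace ℝ (Fin n)) : ℝ :=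
  deriv (fun r : ℝ => deriv (fun s : ℝ => f (u + s • v)) r) 0

/-- A convex body of class `C²₊`, in terms of its support function: `h_K` is `C²` off the origin
and its Hessian at `u ≠ 0` is positive definite on the orthogonal complement of `u`. -/
structure C2Plus {n : ℕ} (K : Set (EuclideanSpace ℝ (Fin n))) : Prop where
  smooth : SmoothTwo (supportFn K)
  curv : ∀ u v, u ≠ 0 → v ≠ 0 → ip u v = 0 → 0 < hess (supportFn K) u v

/-- The linear reflection `x ↦ x - 2 ⟨x, w⟩ v`. -/
noncomputable def reflection {n : ℕ} (v w x : EuclideanSpace ℝ (Fin n)) :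
    EuclideanSpace ℝ (Fin n) := x - (2 * ip x w) • v

/-- `K` is unconditional with respect to the biorthogonal systems `v`, `w`: it is invariant under
the `n` commuting linear reflections `x ↦ x - 2 ⟨x, w i⟩ v i`. For `v = w` the standard basis these
are the reflections in the coordinate hyperplanes. -/
structure Unconditional {n : ℕ} (v w : Fin n → EuclideanSpace ℝ (Fin n))
    (K : Set (EuclideanSpace ℝ (Fin n))) : Prop where
  biorth : ∀ i j, ip (v i) (w j) = if i = j then (1 : ℝ) else 0
  refl_mem : ∀ i, ∀ x ∈ K, reflection (v i) (w i) x ∈ K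

/-- The perturbed Wulff body `W[h_K + t g]`. -/
noncomputable def pertBody {n : ℕ} (K : Set (EuclideanSpace ℝ (Fin n)))
    (g : EuclideanSpace ℝ (Fin n) → ℝ) (t : ℝ) : Set (EuclideanSpace ℝ (Fin n)) :=
  wulff (fun u => supportFn K u + t * g u)

/-- The difference of the two sides of the log-Brunn-Minkowski inequality for the pair
`K`, `W[h_K + t g]` with weight `l`, divided by `t²`. -/
noncomputable def deficit {n : ℕ} (K : Set (EuclideanSpace ℝ (Fin n)))
    (g : EuclideanSpace ℝ (Fin n) → ℝ) (l t : ℝ) : ℝ :=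
  (evol (logComb l K (pertBody K g t)) - evol K ^ (1 - l) * evol (pertBody K g t) ^ l) / t ^ 2

/-- Convergence of a function of `t` as `t → 0`, `t ≠ 0`. -/
def LimZero (f : ℝ → ℝ) (a : ℝ) : Prop := Filter.Tendsto f (nhdsWithin 0 {0}ᶜ) (nhds a)

end Vale.Agent.P227.Loc
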