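import Vale.Agent.P227.Loc.Volume

open MeasureTheory Set Metric Filter Topology
open scoped ENNReal

namespace Vale.Agent.P227.Loc

variable {n : ℕ}

theorem adm_smul {φ : EV n → ℝ} (hφ : Adm φ) (t : ℝ) : Adm (fun u => t * φ u) where
  even := by intro u; rw [hφ.even]
  cont := continuousOn_const.mul hφ.cont
  hom := by intro s hs u; rw [hφ.hom s hs]

theorem adm_zero : Adm (fun _ : EV n => (0 : ℝ)) where
  even := by intro u; rfl
  cont := continuousOn_const
  hom := by intro s hs u; rfl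

theorem fam_linear {K : Set (EV n)} (hK : SymConvexBody K) {g : EV n → ℝ} (hg : Pt g) :
    Fam K g (fun _ => 0) (fun t u => t * psi K g u) where
  adm := Filter.Eventually.of_forall fun t => adm_smul (psi_adm hK hg) t
  chi := adm_zero
  exp := by
    intro ε hε
    refine Filter.Eventually.of_forall fun t u _ => ?_
    simp only [sub_self, mul_zero, abs_zero]
    positivity

/-- integrability of the dual quadratic form -/
theorem qf_integrable (hn : 0 < n) {K : Set (EV n)} (hK : SymConvexBody K) (hC : C2Plus K)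
    {S : EV n → ((EV n →L[ℝ] ℝ) →ₗ[ℝ] EV n)} (hS : IsDual K S) {ν : EV n → EV n}
    (hν : IsConeNormal K ν) {g : EV n → ℝ} (hg : Pt g) :
    Integrable (fun x => qf K S g (ν x)) (volume.restrict (interior K)) := by
  have hfin := finite_restrict hK
  set ρ : Measure (EV n) := volume.restrict (interior K) with hρ
  have hne0 : ∀ᵐ x ∂ρ, x ≠ 0 := ae_ne_zero hn _
  have haeν : ∀ᵐ x ∂ρ, ‖ν x‖ = 1 ∧ inner ℝ x (ν x) = gauge K x * supportFn K (ν x) :=
    ae_restrict_of_ae_restrict_of_subset interior_subset hν.2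
  have hF := fam_linear hK hg
  obtain ⟨M, hM0, hdom⟩ := fam_dom hn hK hC hg hF
  have hψm : Measurable (fun x => psi K g (ν x)) := (measurable_adm (psi_adm hK hg)).comp hν.1
  have hlim : ∀ᵐ x ∂ρ, Tendsto (fun t => (lrat K (fun u => t * psi K g u) x -
      t * psi K g (ν x)) / t ^ 2) (𝓝[≠] 0) (𝓝 (0 - qf K S g (ν x) / 2)) := by
    filter_upwards [hne0, haeν] with x hx hνx
    have hν0 := ne0 hνx.1
    obtain ⟨hq1, hq2⟩ := hS (ν x) hν0 (fderiv ℝ (psi K g) (ν x))
      (psi_fderiv_self hK hC hg hν0)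
    exact fam_tendsto hn hK hC hg hF hx hνx.1 hνx.2 (q := qf K S g (ν x)) hq1 hq2
  have hseq : Tendsto (fun k : ℕ => 1 / ((k : ℝ) + 1)) atTop (𝓝[≠] 0) := by
    rw [tendsto_nhdsWithin_iff]
    refine ⟨tendsto_one_div_add_atTop_nhds_zero_nat, Filter.Eventually.of_forall fun k => ?_⟩
    have : (0 : ℝ) < 1 / ((k : ℝ) + 1) := by positivity
    exact this.ne'
  have hmeas : AEMeasurable (fun x => 0 - qf K S g (ν x) / 2) ρ := by
    apply aemeasurable_of_tendsto_metrizable_ae atTop (f := fun (k : ℕ) x =>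
      (lrat K (fun u => (1 / ((k : ℝ) + 1)) * psi K g u) x -
        (1 / ((k : ℝ) + 1)) * psi K g (ν x)) / (1 / ((k : ℝ) + 1)) ^ 2)
    · intro k
      apply Measurable.aemeasurable
      apply Measurable.div_const
      apply Measurable.sub
      · exact lrat_measurable hK (adm_smul (psi_adm hK hg) _)
      · exact hψm.const_mul _
    · filter_upwards [hlim] with x hx
      exact hx.comp hseq
  have hmeas2 : AEMeasurable (fun x => qf K S g (ν x)) ρ := by
    have := (hmeas.neg.const_mul (2 : ℝ))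
    refine this.congr (Filter.Eventually.of_forall fun x => ?_)
    simp only [Pi.neg_apply]
    ring
  apply Integrable.of_bound hmeas2.aestronglyMeasurable (2 * M)
  filter_upwards [hlim, hne0, haeν] with x hx hx0 hνx
  have hb : ∀ᶠ t in 𝓝[≠] (0 : ℝ), |(lrat K (fun u => t * psi K g u) x -
      t * psi K g (ν x)) / t ^ 2| ≤ M := by
    filter_upwards [hdom.filter_mono (nhdsWithin_le_nhds (s := {(0 : ℝ)}ᶜ)),
      self_mem_nhdsWithin] with t ht ht0
    have ht0' : t ≠ 0 := ht0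
    rw [abs_div, abs_of_pos (show 0 < t ^ 2 by positivity), div_le_iff₀ (by positivity)]
    exact (ht x (ν x) hx0 hνx.1 hνx.2).1
  have h1 := le_of_tendsto hx.abs hb
  rw [Real.norm_eq_abs]
  have h2 : |qf K S g (ν x)| = 2 * |0 - qf K S g (ν x) / 2| := by
    rw [zero_sub, abs_neg, abs_div, abs_of_pos (show (0 : ℝ) < 2 by norm_num)]
    ring
  rw [h2]
  linarith

/-- first order coefficient of the volume -/
noncomputable def V1 (K : Set (EV n)) (ν : EV n → EV n) (g : EV n → ℝ) : ℝ :=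
  n * ∫ x in interior K, psi K g (ν x)

/-- integral of the dual quadratic form -/
noncomputable def IQ (K : Set (EV n)) (S : EV n → ((EV n →L[ℝ] ℝ) →ₗ[ℝ] EV n))
    (ν : EV n → EV n) (g : EV n → ℝ) : ℝ := ∫ x in interior K, qf K S g (ν x)

/-- integral of the square -/
noncomputable def IP (K : Set (EV n)) (ν : EV n → EV n) (g : EV n → ℝ) : ℝ :=
  ∫ x in interior K, psi K g (ν x) ^ 2

/-- second order coefficient of the volume along `t ψ` -/
noncomputable def V2 (K : Set (EV n)) (S : EV n → ((EV n →L[ℝ] ℝ) →ₗ[ℝ] EV n))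
    (ν : EV n → EV n) (g : EV n → ℝ) : ℝ :=
  -(n / 2) * IQ K S ν g + (n : ℝ) ^ 2 / 2 * IP K ν g

/-- the local log-Brunn-Minkowski quadratic form -/
noncomputable def QQ (K : Set (EV n)) (S : EV n → ((EV n →L[ℝ] ℝ) →ₗ[ℝ] EV n))
    (ν : EV n → EV n) (g : EV n → ℝ) : ℝ :=
  V1 K ν g ^ 2 - 2 * evol K * V2 K S ν g

theorem psi_integrable {K : Set (EV n)} (hK : SymConvexBody K) {ν : EV n → EV n}
    (hν : IsConeNormal K ν) {φ : EV n → ℝ} (hφ : Adm φ) :
    Integrable (fun x => φ (ν x)) (volume.restrict (interior K)) := by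
  have hfin := finite_restrict hK
  obtain ⟨P, hP0, hP⟩ := hφ.bound
  have haeν : ∀ᵐ x ∂(volume.restrict (interior K)), ‖ν x‖ = 1 ∧
      inner ℝ x (ν x) = gauge K x * supportFn K (ν x) :=
    ae_restrict_of_ae_restrict_of_subset interior_subset hν.2
  apply Integrable.of_bound ((measurable_adm hφ).comp hν.1).aestronglyMeasurable P
  filter_upwards [haeν] with x hx
  exact hP _ hx.1

theorem adm_mul {φ χ : EV n → ℝ} (hφ : Adm φ) (hχ : Adm χ) : Adm (fun u => φ u * χ u) where
  even := by intro u; rw [hφ.even, hχ.even]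
  cont := hφ.cont.mul hχ.cont
  hom := by intro s hs u; rw [hφ.hom s hs, hχ.hom s hs]

theorem adm_sq {φ : EV n → ℝ} (hφ : Adm φ) : Adm (fun u => φ u ^ 2) where
  even := by intro u; rw [hφ.even]
  cont := hφ.cont.pow 2
  hom := by intro s hs u; rw [hφ.hom s hs]

/-- general second order expansion with the coefficients separated -/
theorem vol_exp2 (hn : 0 < n) {K : Set (EV n)} (hK : SymConvexBody K) (hC : C2Plus K)
    {S : EV n → ((EV n →L[ℝ] ℝ) →ₗ[ℝ] EV n)} (hS : IsDual K S) {ν : EV n → EV n}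
    (hν : IsConeNormal K ν) {g χ : EV n → ℝ} {φ : ℝ → EV n → ℝ} (hg : Pt g)
    (hF : Fam K g χ φ) :
    Tendsto (fun t => (Vol K (φ t) - evol K - t * V1 K ν g) / t ^ 2) (𝓝[≠] 0)
      (𝓝 (n * (∫ x in interior K, χ (ν x)) + V2 K S ν g)) := by
  have h := vol_expansion hn hK hC hS hν hg hF
  have i1 := psi_integrable hK hν hF.chi
  have i2 := qf_integrable hn hK hC hS hν hg
  have i3 := psi_integrable hK hν (adm_sq (psi_adm hK hg))
  have e : ∫ x in interior K, (n * (χ (ν x) - qf K S g (ν x) / 2) +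
        (n : ℝ) ^ 2 / 2 * psi K g (ν x) ^ 2) =
      n * (∫ x in interior K, χ (ν x)) + V2 K S ν g := by
    have e1 : ∀ x, (n * (χ (ν x) - qf K S g (ν x) / 2) +
        (n : ℝ) ^ 2 / 2 * psi K g (ν x) ^ 2) =
        (n * χ (ν x) + (-(n / 2 : ℝ)) * qf K S g (ν x)) +
          (n : ℝ) ^ 2 / 2 * psi K g (ν x) ^ 2 := by
      intro x; ring
    have j1 : Integrable (fun x => (n : ℝ) * χ (ν x)) (volume.restrict (interior K)) :=
      i1.const_mul _
    have j2 : Integrable (fun x => (-(n / 2 : ℝ)) * qf K S g (ν x))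
      (volume.restrict (interior K)) := i2.const_mul _
    have j3 : Integrable (fun x => (n : ℝ) ^ 2 / 2 * psi K g (ν x) ^ 2)
      (volume.restrict (interior K)) := i3.const_mul _
    have j12 : Integrable (fun x => (n : ℝ) * χ (ν x) + (-(n / 2 : ℝ)) * qf K S g (ν x))
      (volume.restrict (interior K)) := j1.add j2
    simp only [e1]
    rw [integral_add j12 j3, integral_add j1 j2, integral_const_mul, integral_const_mul,
      integral_const_mul]
    unfold V2 IQ IP
    ring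
  rw [e] at h
  exact h

theorem vol_exp_linear (hn : 0 < n) {K : Set (EV n)} (hK : SymConvexBody K) (hC : C2Plus K)
    {S : EV n → ((EV n →L[ℝ] ℝ) →ₗ[ℝ] EV n)} (hS : IsDual K S) {ν : EV n → EV n}
    (hν : IsConeNormal K ν) {g : EV n → ℝ} (hg : Pt g) :
    Tendsto (fun t => (Vol K (fun u => t * psi K g u) - evol K - t * V1 K ν g) / t ^ 2) (𝓝[≠] 0)
      (𝓝 (V2 K S ν g)) := by
  have h := vol_exp2 hn hK hC hS hν hg (fam_linear hK hg)
  simpa using h

/-- parallelogram law -/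
theorem QQ_parallelogram (hn : 0 < n) {K : Set (EV n)} (hK : SymConvexBody K) (hC : C2Plus K)
    {S : EV n → ((EV n →L[ℝ] ℝ) →ₗ[ℝ] EV n)} (hS : IsDual K S) {ν : EV n → EV n}
    (hν : IsConeNormal K ν) {g₁ g₂ : EV n → ℝ} (h₁ : Pt g₁) (h₂ : Pt g₂) :
    QQ K S ν (fun u => g₁ u + g₂ u) + QQ K S ν (fun u => g₁ u - g₂ u) =
      2 * QQ K S ν g₁ + 2 * QQ K S ν g₂ := by
  have haeν : ∀ᵐ x ∂(volume.restrict (interior K)), ‖ν x‖ = 1 ∧
      inner ℝ x (ν x) = gauge K x * supportFn K (ν x) :=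
    ae_restrict_of_ae_restrict_of_subset interior_subset hν.2
  have ip : ∀ {g : EV n → ℝ}, Pt g →
      Integrable (fun x => psi K g (ν x)) (volume.restrict (interior K)) :=
    fun hg => psi_integrable hK hν (psi_adm hK hg)
  have is : ∀ {g : EV n → ℝ}, Pt g →
      Integrable (fun x => psi K g (ν x) ^ 2) (volume.restrict (interior K)) :=
    fun hg => psi_integrable hK hν (adm_sq (psi_adm hK hg))
  have iq : ∀ {g : EV n → ℝ}, Pt g →
      Integrable (fun x => qf K S g (ν x)) (volume.restrict (interior K)) :=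
    fun hg => qf_integrable hn hK hC hS hν hg
  have e1 : V1 K ν (fun u => g₁ u + g₂ u) = V1 K ν g₁ + V1 K ν g₂ := by
    unfold V1
    rw [psi_add, integral_add (ip h₁) (ip h₂)]
    ring
  have e2 : V1 K ν (fun u => g₁ u - g₂ u) = V1 K ν g₁ - V1 K ν g₂ := by
    unfold V1
    rw [psi_sub, integral_sub (ip h₁) (ip h₂)]
    ring
  have e3 : IP K ν (fun u => g₁ u + g₂ u) + IP K ν (fun u => g₁ u - g₂ u) =
      2 * IP K ν g₁ + 2 * IP K ν g₂ := by
    unfold IP
    rw [← integral_add (is (h₁.add h₂)) (is (h₁.sub h₂)), ← integral_const_mul,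
      ← integral_const_mul, ← integral_add ((is h₁).const_mul 2) ((is h₂).const_mul 2)]
    apply integral_congr_ae
    refine Filter.Eventually.of_forall fun x => ?_
    simp only [psi_add, psi_sub]
    ring
  have e4 : IQ K S ν (fun u => g₁ u + g₂ u) + IQ K S ν (fun u => g₁ u - g₂ u) =
      2 * IQ K S ν g₁ + 2 * IQ K S ν g₂ := by
    unfold IQ
    rw [← integral_add (iq (h₁.add h₂)) (iq (h₁.sub h₂)), ← integral_const_mul,
      ← integral_const_mul, ← integral_add ((iq h₁).const_mul 2) ((iq h₂).const_mul 2)]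
    apply integral_congr_ae
    filter_upwards [haeν] with x hνx
    have hν0 := ne0 hνx.1
    have d1 := (psi_diff hK hC h₁ hν0).differentiableAt
    have d2 := (psi_diff hK hC h₂ hν0).differentiableAt
    have f1 : fderiv ℝ (psi K fun u => g₁ u + g₂ u) (ν x) =
        fderiv ℝ (psi K g₁) (ν x) + fderiv ℝ (psi K g₂) (ν x) := by
      rw [psi_add]
      exact fderiv_fun_add d1 d2
    have f2 : fderiv ℝ (psi K fun u => g₁ u - g₂ u) (ν x) =
        fderiv ℝ (psi K g₁) (ν x) - fderiv ℝ (psi K g₂) (ν x) := by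
      rw [psi_sub]
      exact fderiv_fun_sub d1 d2
    simp only [qf]
    rw [f1, f2]
    simp only [map_add, map_sub, add_apply, sub_apply]
    ring
  unfold QQ V2
  rw [e1, e2]
  linear_combination (2 * evol K) * (n / 2) * e4 - (2 * evol K) * ((n : ℝ) ^ 2 / 2) * e3

/-- uniqueness of second order expansions -/
theorem expansion_unique {f : ℝ → ℝ} {c a b a' b' : ℝ}
    (h : Tendsto (fun t => (f t - c - t * a) / t ^ 2) (𝓝[≠] 0) (𝓝 b))
    (h' : Tendsto (fun t => (f t - c - t * a') / t ^ 2) (𝓝[≠] 0) (𝓝 b')) :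
    a = a' ∧ b = b' := by
  have ht : Tendsto (fun t : ℝ => t) (𝓝[≠] 0) (𝓝 0) :=
    tendsto_nhdsWithin_of_tendsto_nhds tendsto_id
  have h1 := (h'.sub h).mul ht
  rw [mul_zero] at h1
  have h2 : Tendsto (fun _ : ℝ => a - a') (𝓝[≠] (0 : ℝ)) (𝓝 0) := by
    refine h1.congr' ?_
    filter_upwards [self_mem_nhdsWithin] with t ht0
    have : t ≠ 0 := ht0
    field_simp
    ring
  have h3 : a - a' = 0 := tendsto_nhds_unique tendsto_const_nhds h2
  have h4 : a = a' := by linarith
  subst h4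
  exact ⟨rfl, tendsto_nhds_unique h h'⟩

/-- the form only depends on the volumes `Vol (t ψ)` -/
theorem QQ_congr (hn : 0 < n) {K : Set (EV n)} (hK : SymConvexBody K) (hC : C2Plus K)
    {S : EV n → ((EV n →L[ℝ] ℝ) →ₗ[ℝ] EV n)} (hS : IsDual K S) {ν : EV n → EV n}
    (hν : IsConeNormal K ν) {g₁ g₂ : EV n → ℝ} (h₁ : Pt g₁) (h₂ : Pt g₂)
    (h : ∀ t : ℝ, Vol K (fun u => t * psi K g₁ u) = Vol K (fun u => t * psi K g₂ u)) :
    QQ K S ν g₁ = QQ K S ν g₂ := by
  have e1 := vol_exp_linear hn hK hC hS hν h₁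
  have e2 := vol_exp_linear hn hK hC hS hν h₂
  simp only [h] at e1
  obtain ⟨ha, hb⟩ := expansion_unique e1 e2
  unfold QQ
  rw [ha, hb]

/-- nonnegativity from the product inequality -/
theorem QQ_nonneg_of_mul (hn : 0 < n) {K : Set (EV n)} (hK : SymConvexBody K) (hC : C2Plus K)
    {S : EV n → ((EV n →L[ℝ] ℝ) →ₗ[ℝ] EV n)} (hS : IsDual K S) {ν : EV n → EV n}
    (hν : IsConeNormal K ν) {g : EV n → ℝ} (hg : Pt g)
    (h : ∀ t : ℝ, Vol K (fun u => t * psi K g u) * Vol K (fun u => -t * psi K g u) ≤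
      evol K ^ 2) : 0 ≤ QQ K S ν g := by
  have e1 := vol_exp_linear hn hK hC hS hν hg
  have ht : Tendsto (fun t : ℝ => t) (𝓝[≠] 0) (𝓝 0) :=
    tendsto_nhdsWithin_of_tendsto_nhds tendsto_id
  have hneg : Tendsto (fun t : ℝ => -t) (𝓝[≠] 0) (𝓝[≠] 0) := by
    rw [tendsto_nhdsWithin_iff]
    refine ⟨by simpa using ht.neg, ?_⟩
    filter_upwards [self_mem_nhdsWithin] with t ht0
    have : t ≠ 0 := ht0
    simpa using this
  have e2 := e1.comp hneg
  -- f(t) f(-t) = V0^2 + (2 V0 V2 - V1^2) t^2 + o(t^2)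
  set A : ℝ → ℝ := fun t => (Vol K (fun u => t * psi K g u) - evol K - t * V1 K ν g) / t ^ 2
    with hA
  have e3 : Tendsto (fun t => evol K * (A t + A (-t)) - V1 K ν g ^ 2 +
      t * (V1 K ν g * (A (-t) - A t)) + t * t * (A t * A (-t))) (𝓝[≠] 0)
      (𝓝 (evol K * (V2 K S ν g + V2 K S ν g) - V1 K ν g ^ 2 +
        0 * (V1 K ν g * (V2 K S ν g - V2 K S ν g)) + 0 * 0 * (V2 K S ν g * V2 K S ν g))) := by
    have a1 : Tendsto A (𝓝[≠] 0) (𝓝 (V2 K S ν g)) := e1
    have a2 : Tendsto (fun t => A (-t)) (𝓝[≠] 0) (𝓝 (V2 K S ν g)) := e2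
    exact ((((a1.add a2).const_mul _).sub tendsto_const_nhds).add
      (ht.mul ((a2.sub a1).const_mul _))).add ((ht.mul ht).mul (a1.mul a2))
  have e4 : ∀ᶠ t in 𝓝[≠] (0 : ℝ), evol K * (A t + A (-t)) - V1 K ν g ^ 2 +
      t * (V1 K ν g * (A (-t) - A t)) + t * t * (A t * A (-t)) ≤ 0 := by
    filter_upwards [self_mem_nhdsWithin] with t ht0
    have ht0' : t ≠ 0 := ht0
    have ht2 : 0 < t ^ 2 := by positivity
    have h1 := h t
    have b1 : Vol K (fun u => t * psi K g u) = evol K + t * V1 K ν g + t ^ 2 * A t := by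
      simp only [hA]; field_simp; ring
    have b2 : Vol K (fun u => -t * psi K g u) = evol K - t * V1 K ν g + t ^ 2 * A (-t) := by
      simp only [hA]; field_simp; ring
    rw [b1, b2] at h1
    have h2 : t ^ 2 * (evol K * (A t + A (-t)) - V1 K ν g ^ 2 +
      t * (V1 K ν g * (A (-t) - A t)) + t * t * (A t * A (-t))) ≤ 0 := by
      nlinarith
    by_contra hcon
    push Not at hcon
    have := mul_pos ht2 hcon
    linarith
  have h5 := le_of_tendsto e3 e4
  unfold QQ
  linarith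

end Vale.Agent.P227.Loc
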