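import Vale.Agent.P227.Loc.Support

open MeasureTheory Set Metric Filter Topology

namespace Vale.Agent.P227.Loc

variable {n : ℕ}

/-- the Wulff body of `h_K e^φ` -/
noncomputable def wexp (K : Set (EV n)) (φ : EV n → ℝ) : Set (EV n) :=
  wulff (fun u => supportFn K u * Real.exp (φ u))

/-- even, continuous off the origin, homogeneous of degree zero -/
structure Adm (φ : EV n → ℝ) : Prop where
  even : ∀ u, φ (-u) = φ u
  cont : ContinuousOn φ {0}ᶜ
  hom : ∀ s : ℝ, 0 < s → ∀ u, φ (s • u) = φ u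

theorem ne0 {u : EV n} (hu : ‖u‖ = 1) : u ≠ 0 := by
  intro h; rw [h] at hu; simp at hu

theorem Adm.bound {φ : EV n → ℝ} (hφ : Adm φ) : ∃ B : ℝ, 0 ≤ B ∧ ∀ u : EV n, ‖u‖ = 1 → |φ u| ≤ B := by
  have hc : ContinuousOn φ (sphere (0 : EV n) 1) :=
    hφ.cont.mono fun u hu => ne0 (mem_sphere_zero_iff_norm.1 hu)
  obtain ⟨M0, hM0⟩ := (isCompact_sphere (0 : EV n) 1).exists_bound_of_continuousOn hc
  exact ⟨|M0|, abs_nonneg _, fun u hu =>
    (hM0 u (mem_sphere_zero_iff_norm.2 hu)).trans (le_abs_self _)⟩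

theorem wexp_facts {K : Set (EV n)} (hK : SymConvexBody K) {φ : EV n → ℝ} (hφ : Adm φ) :
    ∃ a b : ℝ, 0 < a ∧ (∀ u, ‖u‖ = 1 → a ≤ supportFn K u * Real.exp (φ u)) ∧
      (∀ u, ‖u‖ = 1 → supportFn K u * Real.exp (φ u) ≤ b) ∧
      (∀ u, supportFn K (-u) * Real.exp (φ (-u)) = supportFn K u * Real.exp (φ u)) ∧
      ContinuousOn (fun u => supportFn K u * Real.exp (φ u)) (sphere 0 1) := by
  have hc : ContinuousOn φ (sphere (0 : EV n) 1) :=
    hφ.cont.mono fun u hu => ne0 (mem_sphere_zero_iff_norm.1 hu)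
  have hcont : ContinuousOn (fun u => supportFn K u * Real.exp (φ u)) (sphere 0 1) := by
    apply ContinuousOn.mul hK.continuous_supportFn.continuousOn
    exact Real.continuous_exp.comp_continuousOn hc
  obtain ⟨r, hr0, hr⟩ := hK.exists_ball
  obtain ⟨R, hR0, hR⟩ := hK.exists_bound
  obtain ⟨B, hB0, hB⟩ := hφ.bound
  refine ⟨r * Real.exp (-B), R * Real.exp B, by positivity, ?_, ?_, ?_, hcont⟩
  · intro u hu
    have h1 := SymConvexBody.supportFn_ge hr0 hK.isCompact hr u
    rw [hu, mul_one] at h1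
    apply mul_le_mul h1 _ (Real.exp_pos _).le (by linarith)
    apply Real.exp_le_exp.2
    exact (abs_le.1 (hB u hu)).1
  · intro u hu
    have h1 := hK.supportFn_le_norm hR u
    rw [hu, mul_one] at h1
    apply mul_le_mul h1 _ (Real.exp_pos _).le hR0.le
    apply Real.exp_le_exp.2
    exact (abs_le.1 (hB u hu)).2
  · intro u
    rw [hK.supportFn_neg, hφ.even]

theorem wexp_scb {K : Set (EV n)} (hK : SymConvexBody K) {φ : EV n → ℝ} (hφ : Adm φ) :
    SymConvexBody (wexp K φ) := by
  obtain ⟨a, b, ha, h1, h2, h3, h4⟩ := wexp_facts hK hφ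
  exact wulff_symConvexBody ha h1 h2 h3

/-- logarithm of the ratio of the gauges -/
noncomputable def lrat (K : Set (EV n)) (φ : EV n → ℝ) (x : EV n) : ℝ :=
  Real.log (gauge K x) - Real.log (gauge (wexp K φ) x)

/-- the gradient of the support function at the normal -/
theorem grad_normal (hn : 0 < n) {K : Set (EV n)} (hK : SymConvexBody K) (hC : C2Plus K)
    {x ν : EV n} (hν : ‖ν‖ = 1) (hx : inner ℝ x ν = gauge K x * supportFn K ν) (v : EV n) :
    inner ℝ x v = gauge K x * fderiv ℝ (supportFn K) ν v := by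
  have hH := hC.hom1 hK
  have hν0 := ne0 hν
  have hmin : IsLocalMin (fun v => gauge K x * supportFn K v - innerSL ℝ x v) ν := by
    apply Filter.Eventually.of_forall
    intro v
    have h0 : gauge K x * supportFn K ν - innerSL ℝ x ν = 0 := by
      rw [innerSL_apply_apply, hx]; ring
    beta_reduce
    rw [h0]
    by_cases hv : v = 0
    · subst hv
      rw [supportFn_zero hK.isCompact ⟨0, hK.zero_mem⟩]
      simp
    · have hvn : 0 < ‖v‖ := norm_pos_iff.2 hv
      have h1 : ‖‖v‖⁻¹ • v‖ = 1 := by rw [norm_smul, norm_inv, norm_norm]; field_simp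
      have h2 := (hK.exists_normal hn x).1 _ h1
      have hve : v = ‖v‖ • (‖v‖⁻¹ • v) := by
        rw [smul_smul, mul_inv_cancel₀ hvn.ne', one_smul]
      have h3 : supportFn K v = ‖v‖ * supportFn K (‖v‖⁻¹ • v) := by
        conv_lhs => rw [hve]
        exact hH.hom _ hvn _
      have h4 : innerSL ℝ x v = ‖v‖ * inner ℝ x (‖v‖⁻¹ • v) := by
        rw [innerSL_apply_apply, inner_smul_right]
        field_simp
      rw [h3, h4]
      nlinarith
  have hd := hmin.fderiv_eq_zero
  have h1 : HasFDerivAt (fun v => gauge K x * supportFn K v - innerSL ℝ x v)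
      (gauge K x • fderiv ℝ (supportFn K) ν - innerSL ℝ x) ν :=
    ((hH.hasF hν0).const_mul (gauge K x)).sub (innerSL ℝ x).hasFDerivAt
  rw [h1.fderiv] at hd
  have h2 := congrArg (fun L : EV n →L[ℝ] ℝ => L v) hd
  simp only [sub_apply, smul_apply, smul_eq_mul, zero_apply, innerSL_apply_apply] at h2
  linarith

/-- upper and lower bounds for the log-ratio of the gauges -/
theorem lrat_bounds (hn : 0 < n) {K : Set (EV n)} (hK : SymConvexBody K) (hC : C2Plus K)
    {φ : EV n → ℝ} (hφ : Adm φ)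
    {x ν : EV n} (hx0 : x ≠ 0) (hν : ‖ν‖ = 1) (hx : inner ℝ x ν = gauge K x * supportFn K ν) :
    (∀ v : EV n, 0 < fderiv ℝ (supportFn K) ν v →
      lrat K φ x ≤ φ v + (supportFn K v - fderiv ℝ (supportFn K) ν v) /
        fderiv ℝ (supportFn K) ν v) ∧
    (∃ u : EV n, ‖u‖ = 1 ∧
      φ u + (supportFn K u - fderiv ℝ (supportFn K) ν u) / supportFn K u ≤ lrat K φ x) := by
  obtain ⟨a, b, ha, h1, h2, h3, h4⟩ := wexp_facts hK hφ
  have hP := wexp_scb hK hφ
  have hH := hC.hom1 hK
  have hg := hK.gauge_pos hx0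
  have hgP := hP.gauge_pos hx0
  obtain ⟨hle, u, hu, hxu⟩ := gauge_wulff_attained hn h4 ha h1 h2 h3 x
  change ∀ u : EV n, ‖u‖ = 1 → inner ℝ x u ≤ gauge (wexp K φ) x *
    (supportFn K u * Real.exp (φ u)) at hle
  change inner ℝ x u = gauge (wexp K φ) x * (supportFn K u * Real.exp (φ u)) at hxu
  constructor
  · intro v hv
    have hv0 : v ≠ 0 := by intro h; rw [h] at hv; simp at hv
    have hvn : 0 < ‖v‖ := norm_pos_iff.2 hv0
    set w := ‖v‖⁻¹ • v with hw
    have hw1 : ‖w‖ = 1 := by rw [hw, norm_smul, norm_inv, norm_norm]; field_simp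
    have hve : v = ‖v‖ • w := by rw [hw, smul_smul, mul_inv_cancel₀ hvn.ne', one_smul]
    have hKw := hK.supportFn_pos (ne0 hw1)
    set ℓ := fderiv ℝ (supportFn K) ν with hℓ
    have e1 : supportFn K v = ‖v‖ * supportFn K w := by
      conv_lhs => rw [hve]
      exact hH.hom _ hvn _
    have e2 : ℓ v = ‖v‖ * ℓ w := by
      conv_lhs => rw [hve]
      rw [map_smul, smul_eq_mul]
    have e3 : φ v = φ w := by
      conv_lhs => rw [hve]
      exact hφ.hom _ hvn _
    have hℓw : 0 < ℓ w := by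
      rw [e2] at hv
      exact (mul_pos_iff_of_pos_left hvn).1 hv
    rw [e1, e2, e3, ← mul_sub, mul_div_mul_left _ _ hvn.ne']
    have h5 := hle w hw1
    rw [grad_normal hn hK hC hν hx w] at h5
    have h6 := Real.log_le_log (by positivity) h5
    rw [Real.log_mul hg.ne' hℓw.ne', Real.log_mul hgP.ne' (by positivity),
      Real.log_mul hKw.ne' (Real.exp_pos _).ne', Real.log_exp] at h6
    have h7 : Real.log (supportFn K w) - Real.log (ℓ w) ≤ (supportFn K w - ℓ w) / ℓ w := by
      rw [← Real.log_div hKw.ne' hℓw.ne']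
      have := Real.log_le_sub_one_of_pos (show 0 < supportFn K w / ℓ w by positivity)
      refine this.trans (le_of_eq ?_)
      field_simp
    unfold lrat
    linarith
  · refine ⟨u, hu, ?_⟩
    have hKu := hK.supportFn_pos (ne0 hu)
    have hpos : 0 < inner ℝ x u := by
      rw [hxu]
      exact mul_pos hgP (lt_of_lt_of_le ha (h1 u hu))
    set ℓ := fderiv ℝ (supportFn K) ν with hℓ
    rw [grad_normal hn hK hC hν hx u] at hxu hpos
    have hℓu : 0 < ℓ u := (mul_pos_iff_of_pos_left hg).1 hpos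
    have h6 := congrArg Real.log hxu
    rw [Real.log_mul hg.ne' hℓu.ne', Real.log_mul hgP.ne' (by positivity),
      Real.log_mul hKu.ne' (Real.exp_pos _).ne', Real.log_exp] at h6
    have h7 : (supportFn K u - ℓ u) / supportFn K u ≤
        Real.log (supportFn K u) - Real.log (ℓ u) := by
      have := Real.log_le_sub_one_of_pos (show 0 < ℓ u / supportFn K u by positivity)
      rw [Real.log_div hℓu.ne' hKu.ne'] at this
      have e : (supportFn K u - ℓ u) / supportFn K u = 1 - ℓ u / supportFn K u := by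
        field_simp
      rw [e]
      linarith
    unfold lrat
    linarith

end Vale.Agent.P227.Loc
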