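import Vale.Agent.P227.Loc.Gauge
import Vale.Agent.P227.T1.Biorth

open MeasureTheory Set Metric Filter Topology
open scoped ENNReal

namespace Vale.Agent.P227.Loc

variable {n : ℕ}

/-- linear reflection `x ↦ x - 2 ⟨x, w⟩ v` (with `⟨v, w⟩ = 1`) -/
noncomputable def rfl' (v w : EV n) (x : EV n) : EV n := x - (2 * inner ℝ x w) • v

/-- the reflection as a linear map -/
noncomputable def rflL (v w : EV n) : EV n →ₗ[ℝ] EV n where
  toFun := rfl' v w
  map_add' := by
    intro x y
    unfold rfl'
    rw [inner_add_left, mul_add, add_smul]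
    abel
  map_smul' := by
    intro c x
    unfold rfl'
    rw [real_inner_smul_left, RingHom.id_apply, smul_sub, smul_smul]
    congr 2
    ring

theorem rfl'_rfl' {v w : EV n} (h : inner ℝ v w = (1 : ℝ)) (x : EV n) :
    rfl' v w (rfl' v w x) = x := by
  unfold rfl'
  have : inner ℝ (x - (2 * inner ℝ x w) • v) w = -inner ℝ x w := by
    rw [inner_sub_left, real_inner_smul_left, h]; ring
  rw [this]
  rw [mul_neg, neg_smul]
  abel

theorem inner_rfl' (v w x u : EV n) : inner ℝ (rfl' v w x) u = inner ℝ x (rfl' w v u) := by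
  unfold rfl'
  rw [inner_sub_left, inner_sub_right, real_inner_smul_left, inner_smul_right,
    real_inner_comm v u]
  ring

theorem rfl'_neg (v w x : EV n) : rfl' v w (-x) = -rfl' v w x := by
  unfold rfl'
  rw [inner_neg_left, mul_neg, neg_smul]
  abel

theorem rfl'_smul (v w x : EV n) (c : ℝ) : rfl' v w (c • x) = c • rfl' v w x :=
  (rflL v w).map_smul c x

theorem volume_rfl' {v w : EV n} (h : inner ℝ v w = (1 : ℝ)) (A : Set (EV n)) :
    volume (rfl' v w ⁻¹' A) = volume A := by
  have hcomp : (rflL v w) ∘ₗ (rflL v w) = LinearMap.id := by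
    ext1 x
    exact rfl'_rfl' h x
  have hdet : LinearMap.det (rflL v w) * LinearMap.det (rflL v w) = 1 := by
    rw [← LinearMap.det_comp, hcomp, LinearMap.det_id]
  have hdet0 : LinearMap.det (rflL v w) ≠ 0 := by
    intro h0
    rw [h0] at hdet
    simp at hdet
  have habs : |(LinearMap.det (rflL v w))⁻¹| = 1 := by
    rcases mul_self_eq_one_iff.1 hdet with h1 | h1 <;> rw [h1] <;> norm_num
  have := Measure.addHaar_preimage_linearMap (volume : Measure (EV n)) hdet0 A
  rw [habs, ENNReal.ofReal_one, one_mul] at this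
  exact this

/-- bounded on the sphere and homogeneous of degree zero -/
structure Bd (φ : EV n → ℝ) : Prop where
  bd : ∃ B : ℝ, ∀ u : EV n, ‖u‖ = 1 → |φ u| ≤ B
  hom : ∀ s : ℝ, 0 < s → ∀ u, φ (s • u) = φ u

theorem mem_wexp {K : Set (EV n)} (hK : SymConvexBody K) {φ : EV n → ℝ} (hφ : Bd φ) (x : EV n) :
    x ∈ wexp K φ ↔ ∀ u : EV n, inner ℝ x u ≤ supportFn K u * Real.exp (φ u) := by
  constructor
  · intro hx u
    by_cases hu : u = 0
    · subst hu
      rw [supportFn_zero hK.isCompact ⟨0, hK.zero_mem⟩]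
      simp
    · have hun : 0 < ‖u‖ := norm_pos_iff.2 hu
      have h1 : ‖‖u‖⁻¹ • u‖ = 1 := by rw [norm_smul, norm_inv, norm_norm]; field_simp
      have h2 := hx _ h1
      beta_reduce at h2
      rw [inner_smul_right, hφ.hom _ (inv_pos.2 hun),
        supportFn_smul hK.isCompact ⟨0, hK.zero_mem⟩ (inv_pos.2 hun).le, mul_assoc] at h2
      exact le_of_mul_le_mul_left h2 (inv_pos.2 hun)
  · intro hx u _
    exact hx u

theorem supportFn_rfl' {K : Set (EV n)} (hK : SymConvexBody K) {v w : EV n}
    (hvw : inner ℝ v w = (1 : ℝ)) (hR : ∀ x ∈ K, rfl' v w x ∈ K) (u : EV n) :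
    supportFn K (rfl' w v u) = supportFn K u := by
  have hle : ∀ u : EV n, supportFn K (rfl' w v u) ≤ supportFn K u := by
    intro u
    apply supportFn_le ⟨0, hK.zero_mem⟩
    intro x hx
    rw [← inner_rfl']
    exact inner_le_supportFn hK.isCompact (hR x hx) u
  apply le_antisymm (hle u)
  have h1 := hle (rfl' w v u)
  rwa [rfl'_rfl' (by rw [real_inner_comm]; exact hvw)] at h1

/-- (G1) invariance of the volume -/
theorem wexp_comp {K : Set (EV n)} (hK : SymConvexBody K) {v w : EV n}
    (hvw : inner ℝ v w = (1 : ℝ)) (hR : ∀ x ∈ K, rfl' v w x ∈ K) {φ : EV n → ℝ} (hφ : Bd φ)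
    (hφ' : Bd (fun u => φ (rfl' w v u))) :
    wexp K (fun u => φ (rfl' w v u)) = rfl' v w ⁻¹' (wexp K φ) := by
  have hwv : inner ℝ w v = (1 : ℝ) := by rw [real_inner_comm]; exact hvw
  ext x
  rw [mem_preimage, mem_wexp hK hφ, mem_wexp hK hφ']
  constructor
  · intro h u
    have h1 := h (rfl' w v u)
    rw [rfl'_rfl' hwv, supportFn_rfl' hK hvw hR, ← inner_rfl'] at h1
    exact h1
  · intro h u
    have h1 := h (rfl' w v u)
    rw [inner_rfl', rfl'_rfl' hwv, supportFn_rfl' hK hvw hR] at h1
    exact h1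

/-- (G2) Kato inequality for volumes. -/
theorem kato {K : Set (EV n)} (hK : SymConvexBody K) {v w : EV n}
    (hvw : inner ℝ v w = (1 : ℝ)) (hR : ∀ x ∈ K, rfl' v w x ∈ K) {φ : EV n → ℝ} (hφ : Bd φ)
    (hodd : ∀ u, φ (rfl' w v u) = -φ u) {φs : EV n → ℝ} (hφs : Bd φs) (hφsn : Bd (fun u => -φs u))
    (hs : ∀ u, 0 ≤ inner ℝ v u → φs u = φ u) (hs' : ∀ u, inner ℝ v u ≤ 0 → φs u = -φ u) :
    2 * volume (wexp K φ) ≤ volume (wexp K φs) + volume (wexp K (fun u => -φs u)) := by
  have hwv : inner ℝ w v = (1 : ℝ) := by rw [real_inner_comm]; exact hvw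
  have hφn : Bd (fun u => -φ u) := by
    obtain ⟨B, hB⟩ := hφ.bd
    refine ⟨⟨B, fun u hu => by rw [abs_neg]; exact hB u hu⟩, fun s hs u => by rw [hφ.hom s hs]⟩
  -- symmetry of the folded function
  have hv0 : ∀ u : EV n, inner ℝ v (rfl' w v u) = -inner ℝ v u := by
    intro u
    unfold rfl'
    rw [inner_sub_right, inner_smul_right, hvw, real_inner_comm v u]
    ring
  have hsinv : ∀ u, φs (rfl' w v u) = φs u := by
    intro u
    rcases le_total 0 (inner ℝ v u) with h | h
    · rw [hs u h, hs' _ (by rw [hv0]; linarith), hodd, neg_neg]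
    · rw [hs' u h, hs _ (by rw [hv0]; linarith), hodd]
  set P : Set (EV n) := {x | 0 < inner ℝ x w} with hP
  set N : Set (EV n) := {x | inner ℝ x w < 0} with hN
  set Z : Set (EV n) := {x | inner ℝ x w = (0 : ℝ)} with hZ
  have hPm : MeasurableSet P := (isOpen_lt continuous_const (by fun_prop)).measurableSet
  have hNm : MeasurableSet N := (isOpen_lt (by fun_prop) continuous_const).measurableSet
  have hZ0 : volume Z = 0 := by
    have hker : Z = ((LinearMap.ker (innerSL ℝ w).toLinearMap : Submodule ℝ (EV n)) :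
        Set (EV n)) := by
      ext x
      simp only [hZ, SetLike.mem_coe, LinearMap.mem_ker]
      change inner ℝ x w = (0 : ℝ) ↔ inner ℝ w x = (0 : ℝ)
      rw [real_inner_comm]
    rw [hker]
    apply Measure.addHaar_submodule
    intro htop
    have : v ∈ (LinearMap.ker (innerSL ℝ w).toLinearMap : Submodule ℝ (EV n)) := by
      rw [htop]; trivial
    rw [LinearMap.mem_ker] at this
    change inner ℝ w v = (0 : ℝ) at this
    rw [hwv] at this
    exact one_ne_zero this
  -- reflection exchanges P and N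
  have hPN : ∀ x, rfl' v w x ∈ P ↔ x ∈ N := by
    intro x
    have : inner ℝ (rfl' v w x) w = -inner ℝ x w := by
      unfold rfl'
      rw [inner_sub_left, real_inner_smul_left, hvw]; ring
    simp only [hP, hN, mem_ofPred_eq, this]
    constructor <;> intro h <;> linarith
  -- half of the folded body
  have half : ∀ {χ : EV n → ℝ}, Bd χ → (∀ u, χ (rfl' w v u) = χ u) →
      2 * volume (wexp K χ ∩ P) ≤ volume (wexp K χ) := by
    intro χ hχ hinv
    have h1 : rfl' v w ⁻¹' (wexp K χ ∩ P) = wexp K χ ∩ N := by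
      have h2 : wexp K (fun u => χ (rfl' w v u)) = wexp K χ := by simp only [hinv]
      have h3 := wexp_comp hK hvw hR hχ (by simp only [hinv]; exact hχ)
      rw [h2] at h3
      ext x
      rw [mem_preimage, mem_inter_iff, mem_inter_iff, hPN]
      constructor
      · rintro ⟨a, b⟩; exact ⟨by rw [h3]; exact a, b⟩
      · rintro ⟨a, b⟩; exact ⟨by rw [h3] at a; exact a, b⟩
    have h4 : volume (wexp K χ ∩ N) = volume (wexp K χ ∩ P) := by
      rw [← h1, volume_rfl' hvw]
    have hdisj : Disjoint (wexp K χ ∩ P) (wexp K χ ∩ N) := by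
      rw [Set.disjoint_left]
      rintro x ⟨_, h5⟩ ⟨_, h6⟩
      simp only [hP, hN, mem_ofPred_eq] at h5 h6
      linarith
    have h7 : wexp K χ ∩ P ∪ wexp K χ ∩ N ⊆ wexp K χ := by
      rintro x (h | h) <;> exact h.1
    calc 2 * volume (wexp K χ ∩ P) = volume (wexp K χ ∩ N) + volume (wexp K χ ∩ P) := by
          rw [h4, two_mul]
      _ = volume (wexp K χ ∩ P) + volume (wexp K χ ∩ N) := add_comm _ _
      _ ≤ volume (wexp K χ ∩ P ∪ wexp K χ ∩ N) := by
          have hmeas : MeasurableSet (wexp K χ) := by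
            have : IsClosed (wexp K χ) := by
              have : wexp K χ = ⋂ (u : EV n) (_ : ‖u‖ = 1),
                  {x | inner ℝ x u ≤ supportFn K u * Real.exp (χ u)} := by
                ext x
                simp [wexp, wulff]
              rw [this]
              refine isClosed_iInter fun u => isClosed_iInter fun _ => ?_
              exact isClosed_le (by fun_prop) continuous_const
            exact this.measurableSet
          rw [measure_union hdisj (hmeas.inter hNm)]
      _ ≤ volume (wexp K χ) := measure_mono h7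
  -- the positive part of the body is contained in the folded body
  have sub1 : ∀ {χ χs : EV n → ℝ}, Bd χ → Bd χs → (∀ u, χ (rfl' w v u) = -χ u) →
      (∀ u, 0 ≤ inner ℝ v u → χs u = χ u) → (∀ u, inner ℝ v u ≤ 0 → χs u = -χ u) →
      wexp K χ ∩ P ⊆ wexp K χs ∩ P := by
    intro χ χs hχ hχs ho h1 h2 x hx
    refine ⟨?_, hx.2⟩
    rw [mem_wexp hK hχs]
    have hx1 := (mem_wexp hK hχ x).1 hx.1
    intro u
    rcases le_total 0 (inner ℝ v u) with h | h
    · rw [h1 u h]; exact hx1 u
    · rw [h2 u h]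
      have h3 := hx1 (rfl' w v u)
      rw [supportFn_rfl' hK hvw hR, ho] at h3
      refine le_trans ?_ h3
      have h4 : inner ℝ x (rfl' w v u) = inner ℝ x u - 2 * inner ℝ v u * inner ℝ x w := by
        unfold rfl'
        rw [inner_sub_right, inner_smul_right, real_inner_comm v u]
      rw [h4]
      have h5 : 0 < inner ℝ x w := hx.2
      nlinarith
  have s1 := sub1 hφ hφs hodd hs hs'
  have s2 := sub1 (χ := fun u => -φ u) (χs := fun u => -φs u) hφn hφsn
    (fun u => by rw [hodd]) (fun u hu => by rw [hs u hu]) (fun u hu => by rw [hs' u hu])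
  have hsplit : volume (wexp K φ) ≤ volume (wexp K φ ∩ P) + volume (wexp K φ ∩ N) := by
    have h1 : wexp K φ ⊆ (wexp K φ ∩ P ∪ wexp K φ ∩ N) ∪ Z := by
      intro x hx
      rcases lt_trichotomy (inner ℝ x w) 0 with h | h | h
      · exact Or.inl (Or.inr ⟨hx, h⟩)
      · exact Or.inr h
      · exact Or.inl (Or.inl ⟨hx, h⟩)
    calc volume (wexp K φ) ≤ volume ((wexp K φ ∩ P ∪ wexp K φ ∩ N) ∪ Z) := measure_mono h1
      _ ≤ volume (wexp K φ ∩ P ∪ wexp K φ ∩ N) + volume Z := measure_union_le _ _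
      _ = volume (wexp K φ ∩ P ∪ wexp K φ ∩ N) := by rw [hZ0, add_zero]
      _ ≤ _ := measure_union_le _ _
  have hN' : volume (wexp K φ ∩ N) = volume (wexp K (fun u => -φ u) ∩ P) := by
    have h1 : rfl' v w ⁻¹' (wexp K (fun u => -φ u) ∩ P) = wexp K φ ∩ N := by
      have h3 := wexp_comp hK hvw hR hφn (by
        have : (fun u => -φ (rfl' w v u)) = φ := by funext u; rw [hodd, neg_neg]
        rw [this]; exact hφ)
      have h4 : (fun u => -φ (rfl' w v u)) = φ := by funext u; rw [hodd, neg_neg]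
      rw [h4] at h3
      ext x
      rw [mem_preimage, mem_inter_iff, mem_inter_iff, hPN]
      constructor
      · rintro ⟨a, b⟩; exact ⟨by rw [h3]; exact a, b⟩
      · rintro ⟨a, b⟩; exact ⟨by rw [h3] at a; exact a, b⟩
    rw [← h1, volume_rfl' hvw]
  calc 2 * volume (wexp K φ) ≤ 2 * (volume (wexp K φ ∩ P) + volume (wexp K φ ∩ N)) :=
        mul_le_mul_right hsplit 2
    _ = 2 * volume (wexp K φ ∩ P) + 2 * volume (wexp K (fun u => -φ u) ∩ P) := by
        rw [hN', mul_add]
    _ ≤ 2 * volume (wexp K φs ∩ P) + 2 * volume (wexp K (fun u => -φs u) ∩ P) :=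
        add_le_add (mul_le_mul_right (measure_mono s1) 2) (mul_le_mul_right (measure_mono s2) 2)
    _ ≤ _ := add_le_add (half hφs hsinv) (half hφsn (fun u => by rw [hsinv]))

end Vale.Agent.P227.Loc
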