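import Vale.Agent.P227.Loc.Geo

open MeasureTheory Set Metric Filter Topology
open scoped ENNReal

namespace Vale.Agent.P227.Loc

variable {n : ℕ}

theorem wexp_scb' {K : Set (EV n)} (hK : SymConvexBody K) {φ : EV n → ℝ} (hφ : Bd φ)
    (heven : ∀ u, φ (-u) = φ u) : SymConvexBody (wexp K φ) := by
  obtain ⟨r, hr0, hr⟩ := hK.exists_ball
  obtain ⟨R, hR0, hR⟩ := hK.exists_bound
  obtain ⟨B, hB⟩ := hφ.bd
  apply wulff_symConvexBody (a := r * Real.exp (-B)) (b := R * Real.exp B) (by positivity)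
  · intro u hu
    have h1 := SymConvexBody.supportFn_ge hr0 hK.isCompact hr u
    rw [hu, mul_one] at h1
    apply mul_le_mul h1 _ (Real.exp_pos _).le (by linarith)
    apply Real.exp_le_exp.2
    exact (abs_le.1 (hB u hu)).1
  · intro u hu
    have h1 := hK.supportFn_le_norm hR u
    rw [hu, mul_one] at h1
    apply mul_le_mul h1 _ (Real.exp_pos _).le hR0.le
    apply Real.exp_le_exp.2
    exact (abs_le.1 (hB u hu)).2
  · intro u
    rw [hK.supportFn_neg, heven]

theorem Bd.neg {φ : EV n → ℝ} (hφ : Bd φ) : Bd (fun u => -φ u) := by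
  obtain ⟨B, hB⟩ := hφ.bd
  exact ⟨⟨B, fun u hu => by rw [abs_neg]; exact hB u hu⟩, fun s hs u => by rw [hφ.hom s hs]⟩

/-- (G3) the product inequality from log-Brunn-Minkowski with `n - 2` reflections. -/
theorem prod_ineq {m : ℕ} {K : Set (EV (m + 2))} (hK : SymConvexBody K)
    (v w : Fin (m + 2) → EV (m + 2))
    (hvw : ∀ i j, inner ℝ (v i) (w j) = if i = j then (1 : ℝ) else 0)
    (hR : ∀ i, ∀ x ∈ K, rfl' (v i) (w i) x ∈ K) (e : Fin m ↪ Fin (m + 2))
    {φ : EV (m + 2) → ℝ} (hφ : Bd φ) (heven : ∀ u, φ (-u) = φ u)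
    (hinv : ∀ j, ∀ u, φ (rfl' (w (e j)) (v (e j)) u) = φ u) :
    volume (wexp K φ) * volume (wexp K (fun u => -φ u)) ≤ volume K ^ 2 := by
  have hK1 := wexp_scb' hK hφ heven
  have hK2 := wexp_scb' hK hφ.neg (fun u => by rw [heven])
  have hii : ∀ i, inner ℝ (v i) (w i) = (1 : ℝ) := by intro i; rw [hvw]; simp
  have inv : ∀ {χ : EV (m + 2) → ℝ}, Bd χ → (∀ j, ∀ u, χ (rfl' (w (e j)) (v (e j)) u) = χ u) →
      ∀ j, ∀ x ∈ wexp K χ, rfl' (v (e j)) (w (e j)) x ∈ wexp K χ := by
    intro χ hχ hi j x hx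
    have h1 := wexp_comp hK (hii (e j)) (hR (e j)) hχ (by simp only [hi]; exact hχ)
    simp only [hi] at h1
    rw [h1] at hx
    exact hx
  have key := T1.main_biorth (fun j => v (e j)) (fun j => w (e j))
    (by
      intro i j
      rw [hvw]
      by_cases h : i = j
      · subst h; simp
      · have : e i ≠ e j := fun h' => h (e.injective h')
        rw [if_neg h, if_neg this])
    (wexp K φ) (wexp K (fun u => -φ u)) hK1 hK2
    (fun j x hx => inv hφ hinv j x hx)
    (fun j x hx => inv hφ.neg (fun j u => by rw [hinv]) j x hx)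
    (1 / 2) ⟨by norm_num, by norm_num⟩
  have hsub : logComb (1 / 2) (wexp K φ) (wexp K (fun u => -φ u)) ⊆ K := by
    intro x hx
    apply mem_of_inner_le_supportFn hK.isCompact hK.convex ⟨0, hK.zero_mem⟩
    intro u hu
    have h1 := hx u hu
    refine h1.trans ?_
    beta_reduce
    have hKu := hK.supportFn_pos (ne0 hu)
    have a1 : supportFn (wexp K φ) u ≤ supportFn K u * Real.exp (φ u) :=
      supportFn_le ⟨0, hK1.zero_mem⟩ fun x hx => hx u hu
    have a2 : supportFn (wexp K (fun u => -φ u)) u ≤ supportFn K u * Real.exp (-φ u) :=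
      supportFn_le ⟨0, hK2.zero_mem⟩ fun x hx => hx u hu
    have b1 := hK1.supportFn_nonneg u
    have b2 := hK2.supportFn_nonneg u
    have e12 : (1 : ℝ) - 1 / 2 = 1 / 2 := by norm_num
    rw [e12, ← Real.mul_rpow b1 b2]
    have h3 : supportFn (wexp K φ) u * supportFn (wexp K (fun u => -φ u)) u ≤
        supportFn K u ^ 2 := by
      calc _ ≤ (supportFn K u * Real.exp (φ u)) * (supportFn K u * Real.exp (-φ u)) :=
            mul_le_mul a1 a2 b2 (by positivity)
        _ = supportFn K u ^ 2 * (Real.exp (φ u) * Real.exp (-φ u)) := by ring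
        _ = supportFn K u ^ 2 := by rw [← Real.exp_add, add_neg_cancel, Real.exp_zero, mul_one]
    calc _ ≤ (supportFn K u ^ 2) ^ (1 / 2 : ℝ) :=
          Real.rpow_le_rpow (mul_nonneg b1 b2) h3 (by norm_num)
      _ = supportFn K u := by
          rw [← Real.sqrt_eq_rpow, Real.sqrt_sq hKu.le]
  have h4 := key.trans (measure_mono hsub)
  have e12 : (1 : ℝ) - 1 / 2 = 1 / 2 := by norm_num
  rw [e12, ← ENNReal.mul_rpow_of_nonneg _ _ (by norm_num : (0 : ℝ) ≤ 1 / 2)] at h4
  have h5 := ENNReal.rpow_le_rpow h4 (by norm_num : (0 : ℝ) ≤ 2)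
  rw [← ENNReal.rpow_mul] at h5
  norm_num at h5
  exact h5

theorem zero_of_odd {v w : EV n} {φ : EV n → ℝ}
    (hodd : ∀ u, φ (rfl' w v u) = -φ u) {u : EV n} (hu : inner ℝ v u = (0 : ℝ)) : φ u = 0 := by
  have h1 := hodd u
  have h2 : rfl' w v u = u := by
    unfold rfl'
    rw [real_inner_comm, hu]
    simp
  rw [h2] at h1
  linarith

/-- folding -/
noncomputable def fold (v : EV n) (φ : EV n → ℝ) (u : EV n) : ℝ := Real.sign (inner ℝ v u) * φ u

theorem Real_sign_abs (x : ℝ) : |Real.sign x| ≤ 1 := by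
  rcases lt_trichotomy x 0 with h | h | h
  · rw [Real.sign_of_neg h]; simp
  · rw [h, Real.sign_zero]; simp
  · rw [Real.sign_of_pos h]; simp

theorem fold_bd {v : EV n} {φ : EV n → ℝ} (hφ : Bd φ) : Bd (fold v φ) := by
  obtain ⟨B, hB⟩ := hφ.bd
  refine ⟨⟨B, fun u hu => ?_⟩, fun s hs u => ?_⟩
  · unfold fold
    rw [abs_mul]
    calc _ ≤ 1 * |φ u| := mul_le_mul_of_nonneg_right (Real_sign_abs _) (abs_nonneg _)
      _ ≤ B := by rw [one_mul]; exact hB u hu
  · unfold fold
    rw [hφ.hom s hs, inner_smul_right]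
    congr 1
    rcases lt_trichotomy (inner ℝ v u) 0 with h | h | h
    · rw [Real.sign_of_neg h, Real.sign_of_neg (mul_neg_of_pos_of_neg hs h)]
    · rw [h, mul_zero]
    · rw [Real.sign_of_pos h, Real.sign_of_pos (mul_pos hs h)]

theorem fold_pos {v w : EV n} {φ : EV n → ℝ} (hodd : ∀ u, φ (rfl' w v u) = -φ u) {u : EV n}
    (hu : 0 ≤ inner ℝ v u) : fold v φ u = φ u := by
  unfold fold
  rcases hu.eq_or_lt with h | h
  · rw [zero_of_odd hodd h.symm, mul_zero]
  · rw [Real.sign_of_pos h, one_mul]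

theorem fold_neg {v w : EV n} {φ : EV n → ℝ} (hodd : ∀ u, φ (rfl' w v u) = -φ u) {u : EV n}
    (hu : inner ℝ v u ≤ 0) : fold v φ u = -φ u := by
  unfold fold
  rcases hu.eq_or_lt with h | h
  · rw [zero_of_odd hodd h, mul_zero, neg_zero]
  · rw [Real.sign_of_neg h, neg_one_mul]

theorem kato_fold {K : Set (EV n)} (hK : SymConvexBody K) {v w : EV n}
    (hvw : inner ℝ v w = (1 : ℝ)) (hR : ∀ x ∈ K, rfl' v w x ∈ K) {φ : EV n → ℝ} (hφ : Bd φ)
    (hodd : ∀ u, φ (rfl' w v u) = -φ u) :
    2 * volume (wexp K φ) ≤ volume (wexp K (fold v φ)) +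
      volume (wexp K (fun u => -fold v φ u)) :=
  kato hK hvw hR hφ hodd (fold_bd hφ) (fold_bd hφ).neg (fun _ hu => fold_pos hodd hu)
    (fun _ hu => fold_neg hodd hu)

theorem fold_comp_same {v w : EV n} (hvw : inner ℝ v w = (1 : ℝ)) {φ : EV n → ℝ}
    (hodd : ∀ u, φ (rfl' w v u) = -φ u) (u : EV n) : fold v φ (rfl' w v u) = fold v φ u := by
  unfold fold
  have h1 : inner ℝ v (rfl' w v u) = -inner ℝ v u := by
    unfold rfl'
    rw [inner_sub_right, inner_smul_right, hvw, real_inner_comm v u]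
    ring
  rw [h1, hodd]
  rcases lt_trichotomy (inner ℝ v u) 0 with h | h | h
  · rw [Real.sign_of_neg h, Real.sign_of_pos (by linarith)]; ring
  · rw [h, neg_zero, Real.sign_zero]; ring
  · rw [Real.sign_of_pos h, Real.sign_of_neg (by linarith)]; ring

theorem fold_comp_other {v v' w' : EV n} (hvw : inner ℝ v w' = (0 : ℝ)) {φ : EV n → ℝ} {c : ℝ}
    (h : ∀ u, φ (rfl' w' v' u) = c * φ u) (u : EV n) :
    fold v φ (rfl' w' v' u) = c * fold v φ u := by
  unfold fold
  have h1 : inner ℝ v (rfl' w' v' u) = inner ℝ v u := by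
    unfold rfl'
    rw [inner_sub_right, inner_smul_right, hvw]
    ring
  rw [h1, h]
  ring

/-- (G4) monotonicity for mixed parity types -/
theorem type_ineq {m : ℕ} {K : Set (EV (m + 2))} (hK : SymConvexBody K)
    (v w : Fin (m + 2) → EV (m + 2))
    (hvw : ∀ i j, inner ℝ (v i) (w j) = if i = j then (1 : ℝ) else 0)
    (hR : ∀ i, ∀ x ∈ K, rfl' (v i) (w i) x ∈ K) (k : ℕ) :
    ∀ (S : Finset (Fin (m + 2))), S.card = 2 * (k + 1) → ∀ φ : EV (m + 2) → ℝ, Bd φ →
      (∀ u, φ (-u) = φ u) → (∀ i ∈ S, ∀ u, φ (rfl' (w i) (v i) u) = -φ u) →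
      (∀ i ∉ S, ∀ u, φ (rfl' (w i) (v i) u) = φ u) → volume (wexp K φ) ≤ volume K := by
  have hii : ∀ i, inner ℝ (v i) (w i) = (1 : ℝ) := by intro i; rw [hvw]; simp
  induction k with
  | zero =>
    intro S hS φ hφ heven hodd hev
    have hc : Sᶜ.card = m := by
      rw [Finset.card_compl, hS, Fintype.card_fin]
      omega
    set e : Fin m ↪ Fin (m + 2) := (Sᶜ.orderEmbOfFin hc).toEmbedding with he
    have hee : ∀ j, e j ∉ S := by
      intro j
      have := Sᶜ.orderEmbOfFin_mem hc j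
      exact Finset.mem_compl.1 this
    have h1 := prod_ineq hK v w hvw hR e hφ heven (fun j u => hev _ (hee j) u)
    have hne : S.Nonempty := by
      rw [← Finset.card_pos, hS]; norm_num
    obtain ⟨a, ha⟩ := hne
    have h2 : volume (wexp K (fun u => -φ u)) = volume (wexp K φ) := by
      have h3 : (fun u => -φ u) = fun u => φ (rfl' (w a) (v a) u) := by
        funext u; rw [hodd a ha]
      have h4 := wexp_comp hK (hii a) (hR a) hφ (by rw [← h3]; exact hφ.neg)
      rw [h3, h4, volume_rfl' (hii a)]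
    rw [h2, ← sq] at h1
    exact (ENNReal.pow_le_pow_left_iff two_ne_zero).1 h1
  | succ k ih =>
    intro S hS φ hφ heven hodd hev
    have h2lt : 1 < S.card := by omega
    obtain ⟨i, hi, j, hj, hij⟩ := Finset.one_lt_card.1 h2lt
    set φ₁ := fold (v i) φ with hφ₁
    have hvij : inner ℝ (v i) (w j) = (0 : ℝ) := by rw [hvw, if_neg hij]
    have hodd1 : ∀ u, φ₁ (rfl' (w j) (v j) u) = -φ₁ u := by
      intro u
      have := fold_comp_other (v := v i) (v' := v j) (w' := w j) (φ := φ) hvij (c := -1)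
        (fun u => by rw [hodd j hj]; ring) u
      rw [← hφ₁] at this
      linarith
    set φ₂ := fold (v j) φ₁ with hφ₂
    have hb1 : Bd φ₁ := fold_bd hφ
    have hb2 : Bd φ₂ := fold_bd hb1
    -- properties of the twice folded function
    have heven2 : ∀ u, φ₂ (-u) = φ₂ u := by
      intro u
      rw [hφ₂, hφ₁]
      unfold fold
      rw [heven, inner_neg_right, inner_neg_right]
      have hs : ∀ x : ℝ, Real.sign (-x) = -Real.sign x := by
        intro x
        rcases lt_trichotomy x 0 with h | h | h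
        · rw [Real.sign_of_neg h, Real.sign_of_pos (by linarith)]; ring
        · rw [h, neg_zero, Real.sign_zero, neg_zero]
        · rw [Real.sign_of_pos h, Real.sign_of_neg (by linarith)]
      rw [hs, hs]
      ring
    have hinv_j : ∀ u, φ₂ (rfl' (w j) (v j) u) = φ₂ u := fold_comp_same (hii j) hodd1
    have hinv_i : ∀ u, φ₂ (rfl' (w i) (v i) u) = φ₂ u := by
      intro u
      have h1 : ∀ u, φ₁ (rfl' (w i) (v i) u) = 1 * φ₁ u := by
        intro u
        rw [one_mul]
        exact fold_comp_same (hii i) (hodd i hi) u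
      have hvji : inner ℝ (v j) (w i) = (0 : ℝ) := by rw [hvw, if_neg (Ne.symm hij)]
      have := fold_comp_other (v := v j) (v' := v i) (w' := w i) hvji h1 u
      rw [one_mul] at this
      exact this
    have hother : ∀ l, l ≠ i → l ≠ j → ∀ c : ℝ, (∀ u, φ (rfl' (w l) (v l) u) = c * φ u) →
        ∀ u, φ₂ (rfl' (w l) (v l) u) = c * φ₂ u := by
      intro l hli hlj c hc
      apply fold_comp_other
      · rw [hvw, if_neg (Ne.symm hlj)]
      · apply fold_comp_other
        · rw [hvw, if_neg (Ne.symm hli)]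
        · exact hc
    set S' : Finset (Fin (m + 2)) := (S.erase i).erase j with hS'
    have hcard : S'.card = 2 * (k + 1) := by
      rw [hS', Finset.card_erase_of_mem (Finset.mem_erase.2 ⟨Ne.symm hij, hj⟩),
        Finset.card_erase_of_mem hi, hS]
      omega
    have hin : ∀ l ∈ S', ∀ u, φ₂ (rfl' (w l) (v l) u) = -φ₂ u := by
      intro l hl u
      rw [hS', Finset.mem_erase, Finset.mem_erase] at hl
      have := hother l hl.2.1 hl.1 (-1) (fun u => by rw [hodd l hl.2.2]; ring) u
      linarith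
    have hout : ∀ l ∉ S', ∀ u, φ₂ (rfl' (w l) (v l) u) = φ₂ u := by
      intro l hl u
      by_cases hli : l = i
      · subst hli; exact hinv_i u
      by_cases hlj : l = j
      · subst hlj; exact hinv_j u
      have hlS : l ∉ S := by
        intro h
        apply hl
        rw [hS', Finset.mem_erase, Finset.mem_erase]
        exact ⟨hlj, hli, h⟩
      have := hother l hli hlj 1 (fun u => by rw [hev l hlS]; ring) u
      linarith
    have ih1 := ih S' hcard φ₂ hb2 heven2 hin hout
    have ih2 := ih S' hcard (fun u => -φ₂ u) hb2.neg (fun u => by rw [heven2])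
      (fun l hl u => by rw [hin l hl]) (fun l hl u => by rw [hout l hl])
    have k0 := kato_fold hK (hii i) (hR i) hφ (hodd i hi)
    have k1 := kato_fold hK (hii j) (hR j) hb1 hodd1
    have k2 := kato_fold hK (hii j) (hR j) hb1.neg (fun u => by rw [hodd1])
    have hfn : fold (v j) (fun u => -φ₁ u) = fun u => -φ₂ u := by
      funext u
      rw [hφ₂]
      unfold fold
      ring
    rw [hfn] at k2
    simp only [neg_neg] at k2
    rw [← hφ₁] at k0
    rw [← hφ₂] at k1
    have two : ∀ {x y : ℝ≥0∞}, 2 * x ≤ y + y → x ≤ y := by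
      intro x y h
      rw [← two_mul] at h
      exact (ENNReal.mul_le_mul_iff_right (by norm_num) (by norm_num)).1 h
    have l1 : volume (wexp K φ₁) ≤ volume K := two (k1.trans (add_le_add ih1 ih2))
    have l2 : volume (wexp K (fun u => -φ₁ u)) ≤ volume K :=
      two (k2.trans (add_le_add ih2 ih1))
    exact two (k0.trans (add_le_add l1 l2))

end Vale.Agent.P227.Loc
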