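import Vale.Agent.P227.Body

open MeasureTheory Set Metric Filter Topology

namespace Vale.Agent.P227.Loc

variable {E : Type*} [NormedAddCommGroup E] [InnerProductSpace ℝ E]

/-- homogeneous of degree one, C^2 off the origin -/
structure Hom1 (f : E → ℝ) : Prop where
  hom : ∀ s : ℝ, 0 < s → ∀ x, f (s • x) = s * f x
  smooth : ContDiffOn ℝ 2 f {0}ᶜ

/-- second derivative as a bilinear map -/
noncomputable abbrev D2 (f : E → ℝ) (x : E) : E →L[ℝ] E →L[ℝ] ℝ := fderiv ℝ (fderiv ℝ f) x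

namespace Hom1

variable {f : E → ℝ} (hf : Hom1 f)

include hf

theorem contDiffAt {x : E} (hx : x ≠ 0) : ContDiffAt ℝ 2 f x :=
  hf.smooth.contDiffAt (isOpen_compl_singleton.mem_nhds hx)

theorem hasF {x : E} (hx : x ≠ 0) : HasFDerivAt f (fderiv ℝ f x) x :=
  ((hf.contDiffAt hx).differentiableAt (by norm_num)).hasFDerivAt

theorem contDiffAt_fderiv {x : E} (hx : x ≠ 0) : ContDiffAt ℝ 1 (fderiv ℝ f) x :=
  (hf.contDiffAt hx).fderiv_right (by norm_num)

theorem hasF2 {x : E} (hx : x ≠ 0) : HasFDerivAt (fderiv ℝ f) (D2 f x) x :=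
  ((hf.contDiffAt_fderiv hx).differentiableAt (by norm_num)).hasFDerivAt

theorem fderiv_smul {s : ℝ} (hs : 0 < s) {x : E} (hx : x ≠ 0) :
    fderiv ℝ f (s • x) = fderiv ℝ f x := by
  have hsx : s • x ≠ 0 := smul_ne_zero hs.ne' hx
  have h1 : HasFDerivAt (fun y => f (s • y))
      ((fderiv ℝ f (s • x)).comp (s • ContinuousLinearMap.id ℝ E)) x := by
    apply HasFDerivAt.comp x (hf.hasF hsx)
    exact (hasFDerivAt_id x).const_smul s
  have h2 : HasFDerivAt (fun y => f (s • y)) (s • fderiv ℝ f x) x := by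
    have := (hf.hasF hx).const_mul s
    refine this.congr_of_eventuallyEq (Filter.Eventually.of_forall fun y => ?_)
    exact hf.hom s hs y
  have h3 := h1.unique h2
  ext v
  have h4 := congrArg (fun L : E →L[ℝ] ℝ => L v) h3
  simp only [ContinuousLinearMap.comp_apply, ContinuousLinearMap.smul_apply,
    ContinuousLinearMap.id_apply, map_smul, smul_eq_mul] at h4
  exact mul_left_cancel₀ hs.ne' h4

theorem D2_smul {s : ℝ} (hs : 0 < s) {x : E} (hx : x ≠ 0) :
    s • D2 f (s • x) = D2 f x := by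
  have hsx : s • x ≠ 0 := smul_ne_zero hs.ne' hx
  have h1 : HasFDerivAt (fun y => fderiv ℝ f (s • y))
      ((D2 f (s • x)).comp (s • ContinuousLinearMap.id ℝ E)) x := by
    apply HasFDerivAt.comp x (hf.hasF2 hsx)
    exact (hasFDerivAt_id x).const_smul s
  have h2 : HasFDerivAt (fun y => fderiv ℝ f (s • y)) (D2 f x) x := by
    refine (hf.hasF2 hx).congr_of_eventuallyEq ?_
    filter_upwards [isOpen_compl_singleton.mem_nhds hx] with y hy
    exact hf.fderiv_smul hs hy
  have h3 := h1.unique h2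
  rw [← h3]
  ext v w
  simp

theorem euler {x : E} (hx : x ≠ 0) : fderiv ℝ f x x = f x := by
  have h1 : HasDerivAt (fun s : ℝ => f (s • x)) (fderiv ℝ f ((1 : ℝ) • x) ((1 : ℝ) • x)) 1 := by
    have hx1 : (1 : ℝ) • x ≠ 0 := by rwa [one_smul]
    exact (hf.hasF hx1).comp_hasDerivAt (1 : ℝ) ((hasDerivAt_id (1 : ℝ)).smul_const x)
  have h2 : HasDerivAt (fun s : ℝ => f (s • x)) (1 * f x) 1 := by
    refine ((hasDerivAt_id (1 : ℝ)).mul_const (f x)).congr_of_eventuallyEq ?_
    filter_upwards [lt_mem_nhds (show (0 : ℝ) < 1 by norm_num)] with s hs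
    exact hf.hom s hs x
  have h3 := h1.unique h2
  simpa using h3

theorem D2_self {x : E} (hx : x ≠ 0) : D2 f x x = 0 := by
  have h1 : HasDerivAt (fun s : ℝ => fderiv ℝ f (s • x)) (D2 f ((1 : ℝ) • x) ((1 : ℝ) • x)) 1 := by
    have hx1 : (1 : ℝ) • x ≠ 0 := by rwa [one_smul]
    exact (hf.hasF2 hx1).comp_hasDerivAt (1 : ℝ) ((hasDerivAt_id (1 : ℝ)).smul_const x)
  have h2 : HasDerivAt (fun s : ℝ => fderiv ℝ f (s • x)) 0 1 := by
    refine (hasDerivAt_const (1 : ℝ) (fderiv ℝ f x)).congr_of_eventuallyEq ?_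
    filter_upwards [lt_mem_nhds (show (0 : ℝ) < 1 by norm_num)] with s hs
    exact hf.fderiv_smul hs hx
  have h3 := h1.unique h2
  simpa using h3

theorem D2_symm {x : E} (hx : x ≠ 0) (v w : E) : D2 f x v w = D2 f x w v := by
  have h := (hf.contDiffAt hx).isSymmSndFDerivAt (by simp)
  exact h v w

theorem D2_self_right {x : E} (hx : x ≠ 0) (v : E) : D2 f x v x = 0 := by
  rw [hf.D2_symm hx, hf.D2_self hx]; rfl

end Hom1

end Vale.Agent.P227.Loc
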