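import Vale.Agent.P227.Loc.Psi

open MeasureTheory Set Metric Filter Topology

namespace Vale.Agent.P227.Loc

variable {n : ℕ}

/-- a family of admissible functions with a uniform second order expansion
`φ_t = t ψ + t² χ + o(t²)` on the sphere, `ψ = g / h_K` -/
structure Fam (K : Set (EV n)) (g χ : EV n → ℝ) (φ : ℝ → EV n → ℝ) : Prop where
  adm : ∀ᶠ t in 𝓝 (0 : ℝ), Adm (φ t)
  chi : Adm χ
  exp : ∀ ε > 0, ∀ᶠ t in 𝓝 (0 : ℝ), ∀ u : EV n, ‖u‖ = 1 →
    |φ t u - t * psi K g u - t ^ 2 * χ u| ≤ ε * t ^ 2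

theorem fam_dom (hn : 0 < n) {K : Set (EV n)} (hK : SymConvexBody K) (hC : C2Plus K)
    {g χ : EV n → ℝ} {φ : ℝ → EV n → ℝ} (hg : Pt g) (hF : Fam K g χ φ) :
    ∃ M : ℝ, 0 < M ∧ ∀ᶠ t in 𝓝 (0 : ℝ), ∀ x ν : EV n, x ≠ 0 → ‖ν‖ = 1 →
      inner ℝ x ν = gauge K x * supportFn K ν →
      |lrat K (φ t) x - t * psi K g ν| ≤ M * t ^ 2 ∧
      ∃ u : EV n, ‖u‖ = 1 ∧ φ t u + (supportFn K u - fderiv ℝ (supportFn K) ν u) /
        supportFn K u ≤ lrat K (φ t) x ∧ ‖u - ν‖ ≤ M * |t| := by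
  obtain ⟨c, hc0, hc⟩ := hC.strong hK
  obtain ⟨a, b, ha, hab, hbd⟩ := (hC.hom1 hK).bounds (fun _ hx => hK.supportFn_pos hx)
  have hb : 0 < b := ha.trans_le hab
  obtain ⟨L, hL0, hL⟩ := psi_lipschitz hK hC hg
  obtain ⟨X, hX0, hX⟩ := hF.chi.bound
  set C₁ : ℝ := X + 1 with hC₁
  have hC₁0 : 0 < C₁ := by positivity
  set M₀ : ℝ := 1 + b / c * (L + 2 * C₁) with hM₀
  have hM₀0 : 0 < M₀ := by positivity
  refine ⟨L * M₀ + C₁ + M₀, by positivity, ?_⟩
  filter_upwards [hF.adm, hF.exp 1 one_pos] with t hadm hexp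
  have hφ : ∀ u : EV n, ‖u‖ = 1 → |φ t u - t * psi K g u| ≤ C₁ * t ^ 2 := by
    intro u hu
    have h1 := hexp u hu
    have h2 : |t ^ 2 * χ u| ≤ X * t ^ 2 := by
      rw [abs_mul, abs_of_nonneg (sq_nonneg t), mul_comm]
      exact mul_le_mul_of_nonneg_right (hX u hu) (sq_nonneg _)
    have h3 := abs_add_le (φ t u - t * psi K g u - t ^ 2 * χ u) (t ^ 2 * χ u)
    rw [sub_add_cancel] at h3
    calc _ ≤ _ := h3
      _ ≤ 1 * t ^ 2 + X * t ^ 2 := add_le_add h1 h2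
      _ = C₁ * t ^ 2 := by rw [hC₁]; ring
  intro x ν hx0 hν hx
  obtain ⟨hup, u, hu, hlow⟩ := lrat_bounds hn hK hC hadm hx0 hν hx
  have hν0 := ne0 hν
  have hKν := hK.supportFn_pos hν0
  have hupν : lrat K (φ t) x ≤ φ t ν := by
    have h1 := hup ν (by rw [(hC.hom1 hK).euler hν0]; exact hKν)
    rw [(hC.hom1 hK).euler hν0, sub_self, zero_div, add_zero] at h1
    exact h1
  have hdist : ‖u - ν‖ ≤ M₀ * |t| :=
    key_attained hK hc0 hb hL0.le hC₁0.le hc (fun u hu => (hbd u hu).2) hL hφ hν hu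
      (hlow.trans hupν)
  have ht0 := abs_nonneg t
  have ht2 := sq_nonneg t
  constructor
  · rw [abs_le]
    constructor
    · -- lower bound
      have h1 : 0 ≤ (supportFn K u - fderiv ℝ (supportFn K) ν u) / supportFn K u := by
        have hKu := hK.supportFn_pos (ne0 hu)
        apply div_nonneg _ hKu.le
        exact le_trans (by positivity) (hc ν u hν hu)
      have h2 := (abs_le.1 (hφ u hu)).1
      have h3 : t * (psi K g ν - psi K g u) ≤ L * M₀ * t ^ 2 := by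
        calc t * (psi K g ν - psi K g u) ≤ |t * (psi K g ν - psi K g u)| := le_abs_self _
          _ = |t| * |psi K g ν - psi K g u| := abs_mul _ _
          _ ≤ |t| * (L * ‖ν - u‖) := mul_le_mul_of_nonneg_left (hL ν u hν hu) ht0
          _ = |t| * (L * ‖u - ν‖) := by rw [norm_sub_rev]
          _ ≤ |t| * (L * (M₀ * |t|)) := by
              apply mul_le_mul_of_nonneg_left _ ht0
              exact mul_le_mul_of_nonneg_left hdist hL0.le
          _ = L * M₀ * |t| ^ 2 := by ring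
          _ = L * M₀ * t ^ 2 := by rw [sq_abs]
      nlinarith
    · have h2 := (abs_le.1 (hφ ν hν)).2
      have h3 : 0 ≤ (L * M₀ + M₀) * t ^ 2 := by positivity
      linarith
  · refine ⟨u, hu, hlow, hdist.trans ?_⟩
    apply mul_le_mul_of_nonneg_right _ ht0
    have : 0 ≤ L * M₀ + C₁ := by positivity
    linarith

/-- all local estimates near the normal -/
theorem loc_est {K : Set (EV n)} (hK : SymConvexBody K) (hC : C2Plus K) {g χ : EV n → ℝ}
    (hg : Pt g) (hχ : Adm χ) {ν : EV n} (hν : ‖ν‖ = 1) {ε : ℝ} (hε : 0 < ε) :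
    ∃ δ > 0, ∀ z : EV n, ‖z‖ < δ →
      |psi K g (ν + z) - psi K g ν - fderiv ℝ (psi K g) ν z| ≤ ε * ‖z‖ ∧
      |χ (ν + z) - χ ν| ≤ ε ∧
      |supportFn K (ν + z) - fderiv ℝ (supportFn K) ν (ν + z) -
        D2 (supportFn K) ν z z / 2| ≤ ε * ‖z‖ ^ 2 ∧
      |(supportFn K (ν + z))⁻¹ - (supportFn K ν)⁻¹| ≤ ε ∧
      |(fderiv ℝ (supportFn K) ν (ν + z))⁻¹ - (supportFn K ν)⁻¹| ≤ ε ∧
      0 < fderiv ℝ (supportFn K) ν (ν + z) := by
  have hν0 := ne0 hν
  have hKν := hK.supportFn_pos hν0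
  have hH := hC.hom1 hK
  have he1 : ∀ᶠ z in 𝓝 (0 : EV n),
      |psi K g (ν + z) - psi K g ν - fderiv ℝ (psi K g) ν z| ≤ ε * ‖z‖ := by
    have h1 := (hasFDerivAt_iff_isLittleO_nhds_zero.1 (psi_diff hK hC hg hν0)).def hε
    filter_upwards [h1] with z hz
    simpa [Real.norm_eq_abs] using hz
  have he2 : ∀ᶠ z in 𝓝 (0 : EV n), |χ (ν + z) - χ ν| ≤ ε := by
    have h1 : ContinuousAt χ ν := hχ.cont.continuousAt (isOpen_compl_singleton.mem_nhds hν0)
    have h2 : Tendsto (fun z : EV n => χ (ν + z)) (𝓝 0) (𝓝 (χ ν)) := by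
      have h3 : Tendsto (fun z : EV n => ν + z) (𝓝 0) (𝓝 ν) := by
        have : Continuous (fun z : EV n => ν + z) := by fun_prop
        simpa using this.tendsto 0
      exact h1.tendsto.comp h3
    have h4 := Metric.tendsto_nhds.1 h2 ε hε
    filter_upwards [h4] with z hz
    rw [Real.dist_eq] at hz
    exact hz.le
  obtain ⟨δ₃, hδ₃, h3⟩ := taylor2 hH hν0 hε
  have he3 : ∀ᶠ z in 𝓝 (0 : EV n), |supportFn K (ν + z) - fderiv ℝ (supportFn K) ν (ν + z) -
        D2 (supportFn K) ν z z / 2| ≤ ε * ‖z‖ ^ 2 := by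
    filter_upwards [Metric.ball_mem_nhds (0 : EV n) hδ₃] with z hz
    exact h3 z (by rwa [mem_ball_zero_iff] at hz)
  have he4 : ∀ᶠ z in 𝓝 (0 : EV n), |(supportFn K (ν + z))⁻¹ - (supportFn K ν)⁻¹| ≤ ε := by
    have h2 : Tendsto (fun z : EV n => (supportFn K (ν + z))⁻¹) (𝓝 0) (𝓝 (supportFn K ν)⁻¹) := by
      have h3 : Tendsto (fun z : EV n => supportFn K (ν + z)) (𝓝 0) (𝓝 (supportFn K ν)) := by
        have : Continuous (fun z : EV n => supportFn K (ν + z)) :=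
          hK.continuous_supportFn.comp (by fun_prop)
        simpa using this.tendsto 0
      exact h3.inv₀ hKν.ne'
    have h4 := Metric.tendsto_nhds.1 h2 ε hε
    filter_upwards [h4] with z hz
    rw [Real.dist_eq] at hz
    exact hz.le
  have hℓt : Tendsto (fun z : EV n => fderiv ℝ (supportFn K) ν (ν + z)) (𝓝 0)
      (𝓝 (supportFn K ν)) := by
    have : Continuous (fun z : EV n => fderiv ℝ (supportFn K) ν (ν + z)) := by fun_prop
    have h5 := this.tendsto 0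
    rw [add_zero, hH.euler hν0] at h5
    exact h5
  have he5 : ∀ᶠ z in 𝓝 (0 : EV n),
      |(fderiv ℝ (supportFn K) ν (ν + z))⁻¹ - (supportFn K ν)⁻¹| ≤ ε := by
    have h4 := Metric.tendsto_nhds.1 (hℓt.inv₀ hKν.ne') ε hε
    filter_upwards [h4] with z hz
    rw [Real.dist_eq] at hz
    exact hz.le
  have he6 : ∀ᶠ z in 𝓝 (0 : EV n), 0 < fderiv ℝ (supportFn K) ν (ν + z) :=
    hℓt.eventually_const_lt hKν
  have hall := he1.and (he2.and (he3.and (he4.and (he5.and he6))))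
  obtain ⟨δ, hδ, h⟩ := Metric.eventually_nhds_iff.1 hall
  refine ⟨δ, hδ, fun z hz => h ?_⟩
  rwa [dist_zero_right]

theorem fam_tendsto (hn : 0 < n) {K : Set (EV n)} (hK : SymConvexBody K) (hC : C2Plus K)
    {g χ : EV n → ℝ} {φ : ℝ → EV n → ℝ} (hg : Pt g) (hF : Fam K g χ φ) {x ν : EV n}
    (hx0 : x ≠ 0) (hν : ‖ν‖ = 1) (hx : inner ℝ x ν = gauge K x * supportFn K ν) {q : ℝ}
    (hq1 : ∀ (z : EV n) (t : ℝ), -(t ^ 2 * q) / 2 ≤
      t * fderiv ℝ (psi K g) ν z + D2 (supportFn K) ν z z / supportFn K ν / 2)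
    (hq2 : ∃ z : EV n, fderiv ℝ (psi K g) ν z + D2 (supportFn K) ν z z / supportFn K ν / 2 =
      -q / 2) :
    Tendsto (fun t => (lrat K (φ t) x - t * psi K g ν) / t ^ 2) (𝓝[≠] 0)
      (𝓝 (χ ν - q / 2)) := by
  have hν0 := ne0 hν
  have hKν := hK.supportFn_pos hν0
  have hH := hC.hom1 hK
  obtain ⟨M, hM0, hdom⟩ := fam_dom hn hK hC hg hF
  obtain ⟨z₀, hz₀⟩ := hq2
  set B : ℝ := ‖D2 (supportFn K) ν‖ with hB
  have hB0 : 0 ≤ B := norm_nonneg (D2 (supportFn K) ν)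
  have hDb : ∀ z : EV n, |D2 (supportFn K) ν z z| ≤ B * ‖z‖ ^ 2 := by
    intro z
    have h5 := (D2 (supportFn K) ν).le_opNorm₂ z z
    rw [Real.norm_eq_abs] at h5
    calc _ ≤ _ := h5
      _ = B * ‖z‖ ^ 2 := by rw [hB]; ring
  set r : ℝ := max M ‖z₀‖ with hr
  have hr0 : 0 ≤ r := le_trans hM0.le (le_max_left _ _)
  set hi : ℝ := (supportFn K ν)⁻¹ with hhi
  have hhi0 : 0 ≤ hi := by positivity
  set N : ℝ := r + 2 + r ^ 2 * hi + (B / 2 + 1) * r ^ 2 with hN
  have hN0 : 0 < N := by positivity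
  have key : ∀ η : ℝ, 0 < η → ∀ᶠ t in 𝓝[≠] (0 : ℝ),
      |(lrat K (φ t) x - t * psi K g ν) / t ^ 2 - (χ ν - q / 2)| ≤ η := by
    intro η hη
    set ε : ℝ := min 1 (η / N) with hε
    have hε0 : 0 < ε := lt_min one_pos (by positivity)
    have hε1 : ε ≤ 1 := min_le_left _ _
    have hεN : ε * N ≤ η := by
      calc ε * N ≤ η / N * N := mul_le_mul_of_nonneg_right (min_le_right _ _) hN0.le
        _ = η := by field_simp
    obtain ⟨δ, hδ, hloc⟩ := loc_est hK hC hg hF.chi hν hε0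
    have hsmall : ∀ᶠ t in 𝓝 (0 : ℝ), (r + 1) * |t| < δ := by
      have : Tendsto (fun t : ℝ => (r + 1) * |t|) (𝓝 0) (𝓝 ((r + 1) * |(0 : ℝ)|)) := by
        have hc : Continuous (fun t : ℝ => (r + 1) * |t|) := by fun_prop
        exact hc.tendsto 0
      rw [abs_zero, mul_zero] at this
      exact this.eventually_lt_const hδ
    have hev := (hsmall.and (hdom.and (hF.adm.and (hF.exp ε hε0)))).filter_mono
      (nhdsWithin_le_nhds (s := {(0 : ℝ)}ᶜ))
    filter_upwards [hev, self_mem_nhdsWithin] with t ht ht0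
    obtain ⟨hts, htdom, hadm, hexp⟩ := ht
    have ht0' : t ≠ 0 := ht0
    have ht2 : 0 < t ^ 2 := by positivity
    have hta := abs_nonneg t
    -- expansion on all nonzero vectors
    have hexp' : ∀ v : EV n, v ≠ 0 → |φ t v - t * psi K g v - t ^ 2 * χ v| ≤ ε * t ^ 2 := by
      intro v hv
      have hvn : 0 < ‖v‖ := norm_pos_iff.2 hv
      have h1 : ‖‖v‖⁻¹ • v‖ = 1 := by rw [norm_smul, norm_inv, norm_norm]; field_simp
      have h2 := hexp _ h1
      rw [hadm.hom _ (inv_pos.2 hvn), (psi_adm hK hg).hom _ (inv_pos.2 hvn),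
        hF.chi.hom _ (inv_pos.2 hvn)] at h2
      exact h2
    obtain ⟨_, u, hu, hlow, hdist⟩ := htdom x ν hx0 hν hx
    obtain ⟨hup, _⟩ := lrat_bounds hn hK hC hadm hx0 hν hx
    -- upper bound
    have hU : lrat K (φ t) x - t * psi K g ν ≤ t ^ 2 * (χ ν - q / 2) + ε * N * t ^ 2 := by
      set z : EV n := t • z₀ with hz
      have hzn : ‖z‖ ≤ r * |t| := by
        rw [hz, norm_smul, Real.norm_eq_abs, mul_comm]
        exact mul_le_mul_of_nonneg_right (le_max_right _ _) hta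
      have hzδ : ‖z‖ < δ := by
        refine lt_of_le_of_lt hzn ?_
        nlinarith
      obtain ⟨l1, l2, l3, l4, l5, l6⟩ := hloc z hzδ
      have hv0 : ν + z ≠ 0 := by
        intro h; rw [h] at l6; simp at l6
      have h1 := hup (ν + z) l6
      have h2 := core_est (t := t) (zn := ‖z‖) hε0 hε1 (norm_nonneg z) hzn hhi0 hB0 (hDb z)
        (hexp' _ hv0) l1 l2 l3 l5
      have h3 : t * fderiv ℝ (psi K g) ν z + D2 (supportFn K) ν z z / 2 * hi =
          -(t ^ 2 * q) / 2 := by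
        rw [hz, map_smul]
        have h4 : D2 (supportFn K) ν (t • z₀) (t • z₀) =
            t ^ 2 * D2 (supportFn K) ν z₀ z₀ := by
          simp; ring
        rw [h4, smul_eq_mul]
        calc t * (t * fderiv ℝ (psi K g) ν z₀) + t ^ 2 * D2 (supportFn K) ν z₀ z₀ / 2 * hi =
            t ^ 2 * (fderiv ℝ (psi K g) ν z₀ +
              D2 (supportFn K) ν z₀ z₀ / supportFn K ν / 2) := by rw [hhi]; ring
          _ = _ := by rw [hz₀]; ring
      have h5 := (abs_le.1 h2).2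
      rw [← hN] at h5
      rw [div_eq_mul_inv] at h1
      linarith
    -- lower bound
    have hL : t ^ 2 * (χ ν - q / 2) - ε * N * t ^ 2 ≤ lrat K (φ t) x - t * psi K g ν := by
      set z : EV n := u - ν with hz
      have hzn : ‖z‖ ≤ r * |t| :=
        hdist.trans (mul_le_mul_of_nonneg_right (le_max_left _ _) hta)
      have hzδ : ‖z‖ < δ := by
        refine lt_of_le_of_lt hzn ?_
        nlinarith
      obtain ⟨l1, l2, l3, l4, l5, l6⟩ := hloc z hzδ
      have hνz : ν + z = u := by rw [hz]; abel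
      have h2 := core_est (t := t) (zn := ‖z‖) hε0 hε1 (norm_nonneg z) hzn hhi0 hB0 (hDb z)
        (hexp' (ν + z) (by rw [hνz]; exact ne0 hu)) l1 l2 l3 l4
      have h3 := hq1 z t
      have h5 := (abs_le.1 h2).1
      rw [hνz, ← hN] at h5
      rw [div_eq_mul_inv] at hlow
      have h6 : D2 (supportFn K) ν z z / 2 * hi =
          D2 (supportFn K) ν z z / supportFn K ν / 2 := by rw [hhi]; ring
      linarith
    have hL' : (χ ν - q / 2) - ε * N ≤ (lrat K (φ t) x - t * psi K g ν) / t ^ 2 := by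
      rw [le_div_iff₀ ht2]; linarith
    have hU' : (lrat K (φ t) x - t * psi K g ν) / t ^ 2 ≤ (χ ν - q / 2) + ε * N := by
      rw [div_le_iff₀ ht2]; linarith
    rw [abs_le]
    constructor <;> linarith
  rw [Metric.tendsto_nhds]
  intro η hη
  filter_upwards [key (η / 2) (by positivity)] with t ht
  rw [Real.dist_eq]
  linarith

end Vale.Agent.P227.Loc
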