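import Vale.Agent.P227.Loc.Gauge

open MeasureTheory Set Metric Filter Topology

namespace Vale.Agent.P227.Loc

variable {n : ℕ}

/-- second order Taylor expansion of a homogeneous function -/
theorem taylor2 {E : Type*} [NormedAddCommGroup E] [InnerProductSpace ℝ E] {f : E → ℝ}
    (hf : Hom1 f) {ν : E} (hν : ν ≠ 0) {ε : ℝ} (hε : 0 < ε) :
    ∃ δ > 0, ∀ z : E, ‖z‖ < δ →
      |f (ν + z) - fderiv ℝ f ν (ν + z) - D2 f ν z z / 2| ≤ ε * ‖z‖ ^ 2 := by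
  have hc : ContinuousAt (D2 f) ν :=
    (hf.continuousOn_D2).continuousAt (isOpen_compl_singleton.mem_nhds hν)
  obtain ⟨δ₁, hδ₁, h1⟩ :=
    (@Metric.continuousAt_iff E (E →L[ℝ] E →L[ℝ] ℝ) _ _ (D2 f) ν).1 hc ε hε
  have hνn : 0 < ‖ν‖ := norm_pos_iff.2 hν
  refine ⟨min δ₁ ‖ν‖, lt_min hδ₁ hνn, fun z hz => ?_⟩
  obtain ⟨hz1, hz2⟩ := lt_min_iff.1 hz
  have hzs : ∀ s ∈ Icc (0 : ℝ) 1, ‖s • z‖ ≤ ‖z‖ := by
    intro s hs
    rw [norm_smul, Real.norm_of_nonneg hs.1]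
    exact mul_le_of_le_one_left (norm_nonneg _) hs.2
  have hne : ∀ s ∈ Icc (0 : ℝ) 1, ν + s • z ≠ 0 := by
    intro s hs h
    have h2 : ν = -(s • z) := eq_neg_of_add_eq_zero_left h
    have h3 := hzs s hs
    have h4 : ‖ν‖ = ‖s • z‖ := by rw [h2, norm_neg]
    linarith
  have hD : ∀ s ∈ Icc (0 : ℝ) 1, |D2 f (ν + s • z) z z - D2 f ν z z| ≤ ε * ‖z‖ ^ 2 := by
    intro s hs
    have h3 : dist (ν + s • z) ν < δ₁ := by
      rw [dist_eq_norm, add_sub_cancel_left]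
      exact (hzs s hs).trans_lt hz1
    have h4 : ‖D2 f (ν + s • z) - D2 f ν‖ ≤ ε :=
      (dist_eq_norm (D2 f (ν + s • z)) (D2 f ν)).symm.le.trans (h1 h3).le
    have h5 := (D2 f (ν + s • z) - D2 f ν).le_opNorm₂ z z
    rw [sub_apply, sub_apply, Real.norm_eq_abs] at h5
    calc |D2 f (ν + s • z) z z - D2 f ν z z| ≤ ‖D2 f (ν + s • z) - D2 f ν‖ * ‖z‖ * ‖z‖ := h5
      _ = ‖D2 f (ν + s • z) - D2 f ν‖ * (‖z‖ * ‖z‖) := by ring
      _ ≤ ε * (‖z‖ * ‖z‖) := mul_le_mul_of_nonneg_right h4 (by positivity)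
      _ = ε * ‖z‖ ^ 2 := by ring
  have kp := taylor1 (φ := fun r => f (ν + r • z)) (φ' := fun r => fderiv ℝ f (ν + r • z) z)
    (φ'' := fun r => D2 f (ν + r • z) z z) (C := D2 f ν z z - ε * ‖z‖ ^ 2)
    (fun r hr => hf.line1 (hne r hr)) (fun r hr => hf.line2 (hne r hr))
    (fun r hr => by have := (abs_le.1 (hD r hr)).1; linarith)
  have km := taylor1 (φ := fun r => -f (ν + r • z)) (φ' := fun r => -fderiv ℝ f (ν + r • z) z)
    (φ'' := fun r => -D2 f (ν + r • z) z z) (C := -D2 f ν z z - ε * ‖z‖ ^ 2)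
    (fun r hr => (hf.line1 (hne r hr)).neg) (fun r hr => (hf.line2 (hne r hr)).neg)
    (fun r hr => by have := (abs_le.1 (hD r hr)).2; linarith)
  simp only [zero_smul, add_zero, one_smul] at kp km
  have e : fderiv ℝ f ν (ν + z) = f ν + fderiv ℝ f ν z := by rw [map_add, hf.euler hν]
  rw [e, abs_le]
  have h6 : 0 ≤ ε * ‖z‖ ^ 2 := by positivity
  constructor <;> linarith

/-- arithmetic core of the pointwise expansion -/
theorem core_est {ε r t a χ pz Dz zn av χv φv δv Hi hi B : ℝ} (hε0 : 0 < ε)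
    (hε1 : ε ≤ 1) (hzn : 0 ≤ zn) (hz : zn ≤ r * |t|) (hhi : 0 ≤ hi) (hB : 0 ≤ B)
    (hD : |Dz| ≤ B * zn ^ 2) (h1 : |φv - t * av - t ^ 2 * χv| ≤ ε * t ^ 2)
    (h2 : |av - a - pz| ≤ ε * zn) (h3 : |χv - χ| ≤ ε) (h4 : |δv - Dz / 2| ≤ ε * zn ^ 2)
    (h5 : |Hi - hi| ≤ ε) :
    |φv + δv * Hi - (t * a + t * pz + t ^ 2 * χ + Dz / 2 * hi)| ≤
      ε * (r + 2 + r ^ 2 * hi + (B / 2 + 1) * r ^ 2) * t ^ 2 := by
  have hzn2 : zn ^ 2 ≤ r ^ 2 * t ^ 2 := by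
    have : zn ^ 2 ≤ (r * |t|) ^ 2 := pow_le_pow_left₀ hzn hz 2
    rwa [mul_pow, sq_abs] at this
  have e : φv + δv * Hi - (t * a + t * pz + t ^ 2 * χ + Dz / 2 * hi) =
      (φv - t * av - t ^ 2 * χv) + t * (av - a - pz) + t ^ 2 * (χv - χ) +
      (δv - Dz / 2) * hi + δv * (Hi - hi) := by ring
  have b2 : |t * (av - a - pz)| ≤ ε * r * t ^ 2 := by
    rw [abs_mul]
    calc |t| * |av - a - pz| ≤ |t| * (ε * zn) := mul_le_mul_of_nonneg_left h2 (abs_nonneg _)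
      _ ≤ |t| * (ε * (r * |t|)) := by
          apply mul_le_mul_of_nonneg_left _ (abs_nonneg _)
          exact mul_le_mul_of_nonneg_left hz hε0.le
      _ = ε * r * |t| ^ 2 := by ring
      _ = ε * r * t ^ 2 := by rw [sq_abs]
  have b3 : |t ^ 2 * (χv - χ)| ≤ ε * t ^ 2 := by
    rw [abs_mul, abs_of_nonneg (sq_nonneg t), mul_comm]
    exact mul_le_mul_of_nonneg_right h3 (sq_nonneg _)
  have b4 : |(δv - Dz / 2) * hi| ≤ ε * (r ^ 2 * hi) * t ^ 2 := by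
    rw [abs_mul, abs_of_nonneg hhi]
    calc |δv - Dz / 2| * hi ≤ (ε * zn ^ 2) * hi := mul_le_mul_of_nonneg_right h4 hhi
      _ ≤ (ε * (r ^ 2 * t ^ 2)) * hi := by
          apply mul_le_mul_of_nonneg_right _ hhi
          exact mul_le_mul_of_nonneg_left hzn2 hε0.le
      _ = ε * (r ^ 2 * hi) * t ^ 2 := by ring
  have b5' : |δv| ≤ (B / 2 + 1) * (r ^ 2 * t ^ 2) := by
    have h6 : |δv| ≤ |δv - Dz / 2| + |Dz / 2| := by
      have := abs_add_le (δv - Dz / 2) (Dz / 2)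
      simpa using this
    have h7 : |Dz / 2| ≤ B / 2 * zn ^ 2 := by
      rw [abs_div, abs_of_pos (show (0 : ℝ) < 2 by norm_num)]
      linarith
    calc |δv| ≤ ε * zn ^ 2 + B / 2 * zn ^ 2 := by linarith
      _ = (B / 2 + ε) * zn ^ 2 := by ring
      _ ≤ (B / 2 + 1) * zn ^ 2 := mul_le_mul_of_nonneg_right (by linarith) (sq_nonneg _)
      _ ≤ (B / 2 + 1) * (r ^ 2 * t ^ 2) := mul_le_mul_of_nonneg_left hzn2 (by positivity)
  have b5 : |δv * (Hi - hi)| ≤ ε * ((B / 2 + 1) * r ^ 2) * t ^ 2 := by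
    rw [abs_mul]
    calc |δv| * |Hi - hi| ≤ ((B / 2 + 1) * (r ^ 2 * t ^ 2)) * ε :=
          mul_le_mul b5' h5 (abs_nonneg _) (by positivity)
      _ = ε * ((B / 2 + 1) * r ^ 2) * t ^ 2 := by ring
  rw [e]
  have c1 := abs_add_le ((φv - t * av - t ^ 2 * χv) + t * (av - a - pz) + t ^ 2 * (χv - χ) +
      (δv - Dz / 2) * hi) (δv * (Hi - hi))
  have c2 := abs_add_le ((φv - t * av - t ^ 2 * χv) + t * (av - a - pz) + t ^ 2 * (χv - χ))
      ((δv - Dz / 2) * hi)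
  have c3 := abs_add_le ((φv - t * av - t ^ 2 * χv) + t * (av - a - pz)) (t ^ 2 * (χv - χ))
  have c4 := abs_add_le (φv - t * av - t ^ 2 * χv) (t * (av - a - pz))
  calc _ ≤ ε * t ^ 2 + ε * r * t ^ 2 + ε * t ^ 2 + ε * (r ^ 2 * hi) * t ^ 2 +
        ε * ((B / 2 + 1) * r ^ 2) * t ^ 2 := by linarith
    _ = _ := by ring

/-- the maximiser stays `O(t)`-close to the normal -/
theorem key_attained {K : Set (EV n)} (hK : SymConvexBody K) {c b L C₁ : ℝ} (hc0 : 0 < c)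
    (hb0 : 0 < b) (hL0 : 0 ≤ L) (hC0 : 0 ≤ C₁)
    (hc : ∀ u v : EV n, ‖u‖ = 1 → ‖v‖ = 1 →
      c * ‖v - u‖ ^ 2 ≤ supportFn K v - fderiv ℝ (supportFn K) u v)
    (hb : ∀ u : EV n, ‖u‖ = 1 → supportFn K u ≤ b) {ψ φ : EV n → ℝ}
    (hLip : ∀ u v : EV n, ‖u‖ = 1 → ‖v‖ = 1 → |ψ u - ψ v| ≤ L * ‖u - v‖) {t : ℝ}
    (hφ : ∀ u : EV n, ‖u‖ = 1 → |φ u - t * ψ u| ≤ C₁ * t ^ 2) {ν u : EV n} (hν : ‖ν‖ = 1)
    (hu : ‖u‖ = 1)
    (h : φ u + (supportFn K u - fderiv ℝ (supportFn K) ν u) / supportFn K u ≤ φ ν) :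
    ‖u - ν‖ ≤ (1 + b / c * (L + 2 * C₁)) * |t| := by
  set d := ‖u - ν‖ with hd
  have hd0 : 0 ≤ d := norm_nonneg _
  have hKu := hK.supportFn_pos (ne0 hu)
  have h1 : c / b * d ^ 2 ≤ (supportFn K u - fderiv ℝ (supportFn K) ν u) / supportFn K u := by
    have h2 := hc ν u hν hu
    rw [le_div_iff₀ hKu]
    calc c / b * d ^ 2 * supportFn K u ≤ c / b * d ^ 2 * b :=
          mul_le_mul_of_nonneg_left (hb u hu) (by positivity)
      _ = c * d ^ 2 := by field_simp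
      _ ≤ _ := h2
  have h3 : φ ν - φ u ≤ |t| * L * d + 2 * C₁ * t ^ 2 := by
    have a1 := (abs_le.1 (hφ ν hν)).2
    have a2 := (abs_le.1 (hφ u hu)).1
    have a3 : t * (ψ ν - ψ u) ≤ |t| * (L * d) := by
      calc t * (ψ ν - ψ u) ≤ |t * (ψ ν - ψ u)| := le_abs_self _
        _ = |t| * |ψ ν - ψ u| := abs_mul _ _
        _ ≤ |t| * (L * ‖ν - u‖) := mul_le_mul_of_nonneg_left (hLip ν u hν hu) (abs_nonneg _)
        _ = |t| * (L * d) := by rw [hd, norm_sub_rev]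
    nlinarith
  have h4 : c / b * d ^ 2 ≤ |t| * L * d + 2 * C₁ * t ^ 2 := by linarith
  by_contra hcon
  push Not at hcon
  have ht0 := abs_nonneg t
  have hcb : 0 < b / c := by positivity
  have h5 : |t| ≤ d := by
    have : 0 ≤ b / c * (L + 2 * C₁) * |t| := by positivity
    nlinarith
  have hdpos : 0 < d := lt_of_le_of_lt (by positivity) hcon
  have h6 : 2 * C₁ * t ^ 2 ≤ 2 * C₁ * (|t| * d) := by
    apply mul_le_mul_of_nonneg_left _ (by positivity)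
    rw [← sq_abs]
    nlinarith
  have h7 : c / b * d ^ 2 ≤ (L + 2 * C₁) * |t| * d := by nlinarith
  have h8 : c / b * d ≤ (L + 2 * C₁) * |t| := by
    have : c / b * d * d ≤ (L + 2 * C₁) * |t| * d := by nlinarith
    exact le_of_mul_le_mul_right this hdpos
  have h9 : d ≤ b / c * ((L + 2 * C₁) * |t|) := by
    calc d = b / c * (c / b * d) := by field_simp
      _ ≤ _ := mul_le_mul_of_nonneg_left h8 hcb.le
  nlinarith

end Vale.Agent.P227.Loc
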