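import Vale.Agent.P227.Loc.Pointwise

open MeasureTheory Set Metric Filter Topology

namespace Vale.Agent.P227.Loc

variable {n : ℕ}

/-- relative perturbation `g / h_K` -/
noncomputable def psi (K : Set (EV n)) (g : EV n → ℝ) (u : EV n) : ℝ := g u / supportFn K u

/-- even, homogeneous of degree one, `C²` off the origin -/
structure Pt (g : EV n → ℝ) : Prop where
  hom1 : Hom1 g
  even : ∀ u, g (-u) = g u

theorem psi_adm {K : Set (EV n)} (hK : SymConvexBody K) {g : EV n → ℝ}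
    (hg : Pt g) : Adm (psi K g) where
  even := by
    intro u
    unfold psi
    rw [hg.even, hK.supportFn_neg]
  cont := by
    unfold psi
    apply ContinuousOn.div
    · intro x hx
      exact (hg.hom1.contDiffAt hx).continuousAt.continuousWithinAt
    · exact hK.continuous_supportFn.continuousOn
    · intro u hu
      exact (hK.supportFn_pos hu).ne'
  hom := by
    intro s hs u
    unfold psi
    rw [hg.hom1.hom s hs, supportFn_smul hK.isCompact ⟨0, hK.zero_mem⟩ hs.le,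
      mul_div_mul_left _ _ hs.ne']

theorem psi_diff {K : Set (EV n)} (hK : SymConvexBody K) (hC : C2Plus K) {g : EV n → ℝ}
    (hg : Pt g) {ν : EV n} (hν : ν ≠ 0) :
    HasFDerivAt (psi K g) (fderiv ℝ (psi K g) ν) ν := by
  have h1 := (hg.hom1.hasF hν).differentiableAt
  have h2 := ((hC.hom1 hK).hasF hν).differentiableAt
  have e : psi K g = fun u => g u * (supportFn K u)⁻¹ := by
    funext u; unfold psi; rw [div_eq_mul_inv]
  rw [e]
  exact (h1.fun_mul (h2.fun_inv (hK.supportFn_pos hν).ne')).hasFDerivAt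

theorem psi_fderiv_self {K : Set (EV n)} (hK : SymConvexBody K) (hC : C2Plus K) {g : EV n → ℝ}
    (hg : Pt g) {ν : EV n} (hν : ν ≠ 0) : fderiv ℝ (psi K g) ν ν = 0 := by
  have hA := psi_adm hK hg
  have h1 : HasDerivAt (fun s : ℝ => psi K g (s • ν)) (fderiv ℝ (psi K g) ((1 : ℝ) • ν)
      ((1 : ℝ) • ν)) 1 := by
    have hx1 : (1 : ℝ) • ν ≠ 0 := by rwa [one_smul]
    exact (psi_diff hK hC hg hx1).comp_hasDerivAt (1 : ℝ)
      ((hasDerivAt_id (1 : ℝ)).smul_const ν)
  have h2 : HasDerivAt (fun s : ℝ => psi K g (s • ν)) 0 1 := by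
    refine (hasDerivAt_const (1 : ℝ) (psi K g ν)).congr_of_eventuallyEq ?_
    filter_upwards [lt_mem_nhds (show (0 : ℝ) < 1 by norm_num)] with s hs
    exact hA.hom s hs ν
  have h3 := h1.unique h2
  simpa using h3

theorem Hom1.lipschitz {g : EV n → ℝ} (hg : Hom1 g) :
    ∃ L : ℝ, 0 < L ∧ ∀ u v : EV n, ‖u‖ = 1 → ‖v‖ = 1 → |g u - g v| ≤ L * ‖u - v‖ := by
  obtain ⟨C, hC0, hC⟩ := upper hg
  have hsub : sphere (0 : EV n) 1 ⊆ {0}ᶜ := fun u hu => ne0 (mem_sphere_zero_iff_norm.1 hu)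
  have hcn1 : ContinuousOn (fun x => ‖fderiv ℝ g x‖) (sphere (0 : EV n) 1) :=
    (hg.continuousOn_D1.mono hsub).norm
  obtain ⟨M1, hM1⟩ := (isCompact_sphere (0 : EV n) 1).exists_bound_of_continuousOn hcn1
  replace hM1 : ∀ x ∈ sphere (0 : EV n) 1, ‖fderiv ℝ g x‖ ≤ M1 :=
    fun x hx => (le_abs_self _).trans (hM1 x hx)
  refine ⟨2 * C + |M1|, by positivity, fun u v hu hv => ?_⟩
  have h1 := hC v u hv hu
  have h2 : g u - g v = (g u - fderiv ℝ g v u) + fderiv ℝ g v (u - v) := by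
    rw [map_sub, hg.euler (ne0 hv)]; ring
  have h3 : |fderiv ℝ g v (u - v)| ≤ |M1| * ‖u - v‖ := by
    have h4 := (fderiv ℝ g v).le_opNorm (u - v)
    refine h4.trans (mul_le_mul_of_nonneg_right ?_ (norm_nonneg _))
    exact (hM1 v (mem_sphere_zero_iff_norm.2 hv)).trans (le_abs_self _)
  have h5 : ‖u - v‖ ≤ 2 := by
    calc ‖u - v‖ ≤ ‖u‖ + ‖v‖ := norm_sub_le _ _
      _ = 2 := by rw [hu, hv]; norm_num
  have h6 : C * ‖u - v‖ ^ 2 ≤ 2 * C * ‖u - v‖ := by
    have := norm_nonneg (u - v)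
    nlinarith [mul_nonneg hC0.le this]
  calc |g u - g v| = |(g u - fderiv ℝ g v u) + fderiv ℝ g v (u - v)| := by rw [h2]
    _ ≤ |g u - fderiv ℝ g v u| + |fderiv ℝ g v (u - v)| := abs_add_le _ _
    _ ≤ C * ‖u - v‖ ^ 2 + |M1| * ‖u - v‖ := add_le_add h1 h3
    _ ≤ (2 * C + |M1|) * ‖u - v‖ := by linarith

theorem psi_lipschitz {K : Set (EV n)} (hK : SymConvexBody K) (hC : C2Plus K) {g : EV n → ℝ}
    (hg : Pt g) : ∃ L : ℝ, 0 < L ∧ ∀ u v : EV n, ‖u‖ = 1 → ‖v‖ = 1 →
      |psi K g u - psi K g v| ≤ L * ‖u - v‖ := by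
  obtain ⟨L1, hL1, h1⟩ := hg.hom1.lipschitz
  obtain ⟨L2, hL2, h2⟩ := (hC.hom1 hK).lipschitz
  obtain ⟨a, b, ha, hab, hbd⟩ := (hC.hom1 hK).bounds (fun _ hx => hK.supportFn_pos hx)
  obtain ⟨G, hG0, hG⟩ := hg.hom1.bound_sphere
  refine ⟨(L1 + G / a * L2) / a, by positivity, fun u v hu hv => ?_⟩
  have hKu := hK.supportFn_pos (ne0 hu)
  have hKv := hK.supportFn_pos (ne0 hv)
  have e : psi K g u - psi K g v =
      ((g u - g v) + g v / supportFn K v * (supportFn K v - supportFn K u)) / supportFn K u := by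
    unfold psi
    field_simp
    ring
  rw [e, abs_div, abs_of_pos hKu]
  have h3 : |g v / supportFn K v| ≤ G / a := by
    rw [abs_div, abs_of_pos hKv]
    exact div_le_div₀ hG0 (hG v hv) ha (hbd v hv).1
  have h4 : |(g u - g v) + g v / supportFn K v * (supportFn K v - supportFn K u)| ≤
      (L1 + G / a * L2) * ‖u - v‖ := by
    calc _ ≤ |g u - g v| + |g v / supportFn K v * (supportFn K v - supportFn K u)| :=
          abs_add_le _ _
      _ ≤ L1 * ‖u - v‖ + G / a * (L2 * ‖u - v‖) := by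
          apply add_le_add (h1 u v hu hv)
          rw [abs_mul]
          apply mul_le_mul h3 _ (abs_nonneg _) (by positivity)
          rw [abs_sub_comm]
          exact h2 u v hu hv
      _ = _ := by ring
  calc _ ≤ (L1 + G / a * L2) * ‖u - v‖ / a := by
        apply div_le_div₀ (by positivity) h4 ha (hbd u hu).1
    _ = _ := by ring

theorem psi_add (K : Set (EV n)) (g₁ g₂ : EV n → ℝ) :
    psi K (fun u => g₁ u + g₂ u) = fun u => psi K g₁ u + psi K g₂ u := by
  funext u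
  unfold psi
  ring

theorem psi_sub (K : Set (EV n)) (g₁ g₂ : EV n → ℝ) :
    psi K (fun u => g₁ u - g₂ u) = fun u => psi K g₁ u - psi K g₂ u := by
  funext u
  unfold psi
  ring

theorem Pt.add {g₁ g₂ : EV n → ℝ} (h₁ : Pt g₁) (h₂ : Pt g₂) : Pt (fun u => g₁ u + g₂ u) where
  hom1 :=
    { hom := by intro s hs x; rw [h₁.hom1.hom s hs, h₂.hom1.hom s hs]; ring
      smooth := h₁.hom1.smooth.add h₂.hom1.smooth }
  even := by intro u; rw [h₁.even, h₂.even]

theorem Pt.sub {g₁ g₂ : EV n → ℝ} (h₁ : Pt g₁) (h₂ : Pt g₂) : Pt (fun u => g₁ u - g₂ u) where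
  hom1 :=
    { hom := by intro s hs x; rw [h₁.hom1.hom s hs, h₂.hom1.hom s hs]; ring
      smooth := h₁.hom1.smooth.sub h₂.hom1.smooth }
  even := by intro u; rw [h₁.even, h₂.even]

theorem Pt.smul {g : EV n → ℝ} (h : Pt g) (c : ℝ) : Pt (fun u => c * g u) where
  hom1 :=
    { hom := by intro s hs x; rw [h.hom1.hom s hs]; ring
      smooth := contDiffOn_const.mul h.hom1.smooth }
  even := by intro u; rw [h.even]

end Vale.Agent.P227.Loc
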