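import Vale.Agent.P227.Loc.Strong

open MeasureTheory Set Metric Filter Topology

namespace Vale.Agent.P227.Loc

variable {E : Type*} [NormedAddCommGroup E] [InnerProductSpace ℝ E]

theorem D2_nonneg {f : E → ℝ} (hf : Hom1 f)
    (hcurv : ∀ u v : E, u ≠ 0 → v ≠ 0 → inner ℝ u v = 0 → 0 < D2 f u v v) {y : E}
    (hy : y ≠ 0) (w : E) : 0 ≤ D2 f y w w ∧ (D2 f y w w = 0 → inner ℝ y w = 0 → w = 0) := by
  set α : ℝ := inner ℝ y w / ‖y‖ ^ 2 with hα
  set w' : E := w - α • y with hw'
  have hyn : 0 < ‖y‖ := norm_pos_iff.2 hy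
  have horth : inner ℝ y w' = 0 := by
    rw [hw', inner_sub_right, inner_smul_right, real_inner_self_eq_norm_sq, hα]
    field_simp
    ring
  have hwe : w = w' + α • y := by rw [hw']; abel
  have hD : D2 f y w w = D2 f y w' w' := by
    rw [hwe]
    simp only [map_add, map_smul, add_apply, hf.D2_self hy, hf.D2_self_right hy, smul_eq_mul,
      zero_apply, smul_zero]
    simp
  constructor
  · rw [hD]
    by_cases h0 : w' = 0
    · rw [h0]; simp
    · exact (hcurv y w' hy h0 horth).le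
  · intro h1 h2
    have hα0 : α = 0 := by rw [hα, h2, zero_div]
    have hww : w = w' := by rw [hwe, hα0, zero_smul, add_zero]
    by_contra hw
    have := hcurv y w hy hw h2
    linarith

/-- the dual quadratic form of the Hessian. -/
theorem exists_S [FiniteDimensional ℝ E] {f : E → ℝ} (hf : Hom1 f)
    (hpos : ∀ x, x ≠ 0 → 0 < f x)
    (hcurv : ∀ u v : E, u ≠ 0 → v ≠ 0 → inner ℝ u v = 0 → 0 < D2 f u v v) (y : E)
    (hy : y ≠ 0) : ∃ S : (E →L[ℝ] ℝ) →ₗ[ℝ] E, ∀ p : E →L[ℝ] ℝ, p y = 0 →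
      (∀ (z : E) (t : ℝ), -(t ^ 2 * p (S p)) / 2 ≤ t * p z + D2 f y z z / f y / 2) ∧
      (∃ z : E, p z + D2 f y z z / f y / 2 = -(p (S p)) / 2) := by
  have hfy := hpos y hy
  set T : E →ₗ[ℝ] (E →L[ℝ] ℝ) :=
    ((f y)⁻¹ • (D2 f y) : E →L[ℝ] (E →L[ℝ] ℝ)).toLinearMap +
      ((innerSL ℝ y).smulRight (innerSL ℝ y) : E →L[ℝ] (E →L[ℝ] ℝ)).toLinearMap with hT
  have hTa : ∀ w z : E, T w z = (f y)⁻¹ * D2 f y w z + inner ℝ y w * inner ℝ y z := by
    intro w z
    simp [hT]
  have hinj : Function.Injective T := by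
    rw [injective_iff_map_eq_zero]
    intro w hw
    have h1 := hTa w w
    rw [hw, zero_apply] at h1
    obtain ⟨h2, h3⟩ := D2_nonneg hf hcurv hy w
    have h4 : 0 ≤ (f y)⁻¹ * D2 f y w w := by positivity
    have h5 : 0 ≤ inner ℝ y w * inner ℝ y w := mul_self_nonneg _
    have h6 : inner ℝ y w * inner ℝ y w = 0 := by linarith
    have h7 : (f y)⁻¹ * D2 f y w w = 0 := by linarith
    have h8 : inner ℝ y w = 0 := mul_self_eq_zero.1 h6
    have h9 : D2 f y w w = 0 := by
      rcases mul_eq_zero.1 h7 with h | h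
      · exact absurd h (by positivity)
      · exact h
    exact h3 h9 h8
  have hdim : Module.finrank ℝ E = Module.finrank ℝ (E →L[ℝ] ℝ) := by
    rw [← (LinearMap.toContinuousLinearMap : (E →ₗ[ℝ] ℝ) ≃ₗ[ℝ] (E →L[ℝ] ℝ)).finrank_eq]
    exact (Subspace.dual_finrank_eq (K := ℝ) (V := E)).symm
  have : FiniteDimensional ℝ (E →L[ℝ] ℝ) := inferInstance
  set e : E ≃ₗ[ℝ] (E →L[ℝ] ℝ) := LinearMap.linearEquivOfInjective T hinj hdim with he
  refine ⟨e.symm.toLinearMap, fun p hp => ?_⟩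
  set s : E := e.symm.toLinearMap p with hs
  have hTs : T s = p := by
    have : e s = p := by rw [hs]; exact e.apply_symm_apply p
    rw [← this]
    rfl
  have hys : inner ℝ y s = 0 := by
    have h1 := hTa s y
    rw [hTs, hp, hf.D2_self_right hy, mul_zero, zero_add, real_inner_self_eq_norm_sq] at h1
    have hyn : 0 < ‖y‖ := norm_pos_iff.2 hy
    rcases mul_eq_zero.1 h1.symm with h | h
    · exact h
    · exact absurd h (by positivity)
  have hAs : ∀ z, (f y)⁻¹ * D2 f y s z = p z := by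
    intro z
    have h1 := hTa s z
    rw [hTs, hys, zero_mul, add_zero] at h1
    exact h1.symm
  constructor
  · intro z t
    have h1 := (D2_nonneg hf hcurv hy (z + t • s)).1
    have h2 : D2 f y (z + t • s) (z + t • s) =
        D2 f y z z + 2 * t * D2 f y s z + t ^ 2 * D2 f y s s := by
      simp only [map_add, map_smul, add_apply, smul_apply, smul_eq_mul]
      rw [hf.D2_symm hy z s]
      ring
    have h3 : 0 ≤ (f y)⁻¹ * D2 f y (z + t • s) (z + t • s) := by positivity
    rw [h2] at h3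
    have h4 : (f y)⁻¹ * (D2 f y z z + 2 * t * D2 f y s z + t ^ 2 * D2 f y s s) =
        D2 f y z z / f y + 2 * t * p z + t ^ 2 * p s := by
      rw [← hAs z, ← hAs s]; ring
    rw [h4] at h3
    linarith
  · refine ⟨-s, ?_⟩
    have h1 : D2 f y (-s) (-s) = D2 f y s s := by simp
    rw [h1, map_neg]
    have h2 := hAs s
    have h3 : D2 f y s s / f y = p s := by rw [← h2]; ring
    rw [h3]
    ring

end Vale.Agent.P227.Loc
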