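import Vale.Agent.P227.Loc.Hom

open MeasureTheory Set Metric Filter Topology

namespace Vale.Agent.P227.Loc

theorem taylor1 {φ φ' φ'' : ℝ → ℝ} (h1 : ∀ s ∈ Icc (0 : ℝ) 1, HasDerivAt φ (φ' s) s)
    (h2 : ∀ s ∈ Icc (0 : ℝ) 1, HasDerivAt φ' (φ'' s) s) {C : ℝ}
    (hC : ∀ s ∈ Icc (0 : ℝ) 1, C ≤ φ'' s) : φ 0 + φ' 0 + C / 2 ≤ φ 1 := by
  set ψ : ℝ → ℝ := fun s => φ s - C / 2 * s ^ 2 with hψ
  set ψ' : ℝ → ℝ := fun s => φ' s - C * s with hψ'
  have d1 : ∀ s ∈ Icc (0 : ℝ) 1, HasDerivAt ψ (ψ' s) s := by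
    intro s hs
    have := (h1 s hs).sub (((hasDerivAt_id s).pow 2).const_mul (C / 2))
    refine this.congr_deriv ?_
    simp only [hψ', id]
    norm_num
    ring
  have d2 : ∀ s ∈ Icc (0 : ℝ) 1, HasDerivAt ψ' (φ'' s - C) s := by
    intro s hs
    have := (h2 s hs).sub ((hasDerivAt_id s).const_mul C)
    refine this.congr_deriv ?_
    simp
  have hcont : ContinuousOn ψ (Icc 0 1) := fun s hs => (d1 s hs).continuousAt.continuousWithinAt
  obtain ⟨ξ, hξ, hξe⟩ := exists_hasDerivAt_eq_slope ψ ψ' (by norm_num : (0 : ℝ) < 1) hcont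
    (fun s hs => d1 s ⟨hs.1.le, hs.2.le⟩)
  have hcont' : ContinuousOn ψ' (Icc 0 ξ) := fun s hs =>
    (d2 s ⟨hs.1, hs.2.trans hξ.2.le⟩).continuousAt.continuousWithinAt
  obtain ⟨η, hη, hηe⟩ := exists_hasDerivAt_eq_slope ψ' (fun s => φ'' s - C) hξ.1 hcont'
    (fun s hs => d2 s ⟨hs.1.le, (hs.2.trans hξ.2).le⟩)
  have h3 := hC η ⟨hη.1.le, (hη.2.trans hξ.2).le⟩
  have hξ0 : 0 < ξ := hξ.1
  have h4 : 0 ≤ (ψ' ξ - ψ' 0) / (ξ - 0) := by rw [← hηe]; linarith
  rw [sub_zero, le_div_iff₀ hξ0, zero_mul] at h4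
  have h5 : ψ' ξ = ψ 1 - ψ 0 := by rw [hξe]; norm_num
  have e1 : ψ 1 = φ 1 - C / 2 := by simp [hψ]
  have e0 : ψ 0 = φ 0 := by simp [hψ]
  have e0' : ψ' 0 = φ' 0 := by simp [hψ']
  rw [e1, e0] at h5
  rw [e0', h5] at h4
  linarith

variable {E : Type*} [NormedAddCommGroup E] [InnerProductSpace ℝ E]

theorem Hom1.line1 {f : E → ℝ} (hf : Hom1 f) {u w : E} {s : ℝ} (hs : u + s • w ≠ 0) :
    HasDerivAt (fun s : ℝ => f (u + s • w)) (fderiv ℝ f (u + s • w) w) s := by
  have h1 : HasDerivAt (fun s : ℝ => u + s • w) ((1 : ℝ) • w) s :=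
    ((hasDerivAt_id s).smul_const w).const_add u
  have := (hf.hasF hs).comp_hasDerivAt s h1
  rwa [one_smul] at this

theorem Hom1.line2 {f : E → ℝ} (hf : Hom1 f) {u w : E} {s : ℝ} (hs : u + s • w ≠ 0) :
    HasDerivAt (fun s : ℝ => fderiv ℝ f (u + s • w) w) (D2 f (u + s • w) w w) s := by
  have h1 : HasDerivAt (fun s : ℝ => u + s • w) ((1 : ℝ) • w) s :=
    ((hasDerivAt_id s).smul_const w).const_add u
  have h2 := (hf.hasF2 hs).comp_hasDerivAt s h1
  rw [one_smul] at h2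
  have h3 := (ContinuousLinearMap.apply ℝ ℝ w).hasFDerivAt (x := fderiv ℝ f (u + s • w))
  exact h3.comp_hasDerivAt s h2

/-- the quadratic form `(Df·w)^2 + f D²f(w,w)`, i.e. the Hessian of `f²/2` -/
noncomputable def Phi (f : E → ℝ) (y w : E) : ℝ := (fderiv ℝ f y w) ^ 2 + f y * D2 f y w w

theorem Phi_pos {f : E → ℝ} (hf : Hom1 f) (hpos : ∀ x, x ≠ 0 → 0 < f x)
    (hcurv : ∀ u v : E, u ≠ 0 → v ≠ 0 → inner ℝ u v = 0 → 0 < D2 f u v v) {y w : E}
    (hy : y ≠ 0) (hw : w ≠ 0) : 0 < Phi f y w := by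
  set α : ℝ := inner ℝ y w / ‖y‖ ^ 2 with hα
  set w' : E := w - α • y with hw'
  have hyn : 0 < ‖y‖ := norm_pos_iff.2 hy
  have horth : inner ℝ y w' = 0 := by
    rw [hw', inner_sub_right, inner_smul_right, real_inner_self_eq_norm_sq, hα]
    field_simp
    ring
  have hwe : w = w' + α • y := by rw [hw']; abel
  have hD : D2 f y w w = D2 f y w' w' := by
    rw [hwe]
    simp only [map_add, map_smul, add_apply,
      hf.D2_self hy, hf.D2_self_right hy, smul_eq_mul,
      zero_apply, smul_zero]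
    simp
  unfold Phi
  by_cases h0 : w' = 0
  · have hw2 : w = α • y := by rw [hwe, h0, zero_add]
    have hα0 : α ≠ 0 := by
      intro h; apply hw; rw [hw2, h, zero_smul]
    rw [hD, h0, hw2]
    simp only [map_smul, map_zero, mul_zero, add_zero, smul_eq_mul, hf.euler hy]
    have := hpos y hy
    positivity
  · have h1 := hcurv y w' hy h0 horth
    rw [hD]
    have h2 := hpos y hy
    have h3 : 0 < f y * D2 f y w' w' := mul_pos h2 h1
    have h4 := sq_nonneg (fderiv ℝ f y w)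
    linarith

theorem Hom1.bounds [FiniteDimensional ℝ E] {f : E → ℝ} (hf : Hom1 f)
    (hpos : ∀ x, x ≠ 0 → 0 < f x) : ∃ a b : ℝ, 0 < a ∧ a ≤ b ∧
    ∀ u, ‖u‖ = 1 → a ≤ f u ∧ f u ≤ b := by
  have hcont : ContinuousOn f (sphere (0 : E) 1) := by
    intro u hu
    have hu0 : u ≠ 0 := by
      intro h; rw [h] at hu; simp at hu
    exact (hf.contDiffAt hu0).continuousAt.continuousWithinAt
  by_cases hne : (sphere (0 : E) 1).Nonempty
  · obtain ⟨u₁, hu₁, h1⟩ := (isCompact_sphere (0 : E) 1).exists_isMinOn hne hcont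
    obtain ⟨u₂, hu₂, h2⟩ := (isCompact_sphere (0 : E) 1).exists_isMaxOn hne hcont
    have hu0 : u₁ ≠ 0 := by
      intro h; rw [h] at hu₁; simp at hu₁
    refine ⟨f u₁, f u₂, hpos u₁ hu0, h1 hu₂, fun u hu => ?_⟩
    exact ⟨h1 (mem_sphere_zero_iff_norm.2 hu), h2 (mem_sphere_zero_iff_norm.2 hu)⟩
  · refine ⟨1, 1, one_pos, le_rfl, fun u hu => ?_⟩
    exact absurd ⟨u, mem_sphere_zero_iff_norm.2 hu⟩ hne

theorem Hom1.continuousOn_D1 {f : E → ℝ} (hf : Hom1 f) : ContinuousOn (fderiv ℝ f) {0}ᶜ := by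
  intro x hx
  exact (hf.contDiffAt_fderiv hx).continuousAt.continuousWithinAt

theorem Hom1.continuousOn_D2 {f : E → ℝ} (hf : Hom1 f) : ContinuousOn (D2 f) {0}ᶜ := by
  intro x hx
  have h : ContDiffAt ℝ 0 (fderiv ℝ (fderiv ℝ f)) x :=
    (hf.contDiffAt_fderiv hx).fderiv_right (by norm_num)
  exact h.continuousAt.continuousWithinAt

theorem Phi_lower [FiniteDimensional ℝ E] {f : E → ℝ} (hf : Hom1 f)
    (hpos : ∀ x, x ≠ 0 → 0 < f x)
    (hcurv : ∀ u v : E, u ≠ 0 → v ≠ 0 → inner ℝ u v = 0 → 0 < D2 f u v v) :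
    ∃ m : ℝ, 0 < m ∧ ∀ y w : E, y ≠ 0 → m * ‖w‖ ^ 2 ≤ Phi f y w := by
  by_cases hne : (sphere (0 : E) 1).Nonempty
  · have hcomp : IsCompact (sphere (0 : E) 1 ×ˢ sphere (0 : E) 1) :=
      (isCompact_sphere _ _).prod (isCompact_sphere _ _)
    have hne' : (sphere (0 : E) 1 ×ˢ sphere (0 : E) 1).Nonempty := hne.prod hne
    have hs0 : ∀ u ∈ sphere (0 : E) 1, u ≠ 0 := by
      intro u hu h
      rw [h] at hu; simp at hu
    have hcf : ContinuousOn (fun p : E × E => f p.1) (sphere (0 : E) 1 ×ˢ sphere (0 : E) 1) := by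
      intro p hp
      exact ((hf.contDiffAt (hs0 _ hp.1)).continuousAt.comp
        continuous_fst.continuousAt).continuousWithinAt
    have hcD1 : ContinuousOn (fun p : E × E => fderiv ℝ f p.1 p.2)
        (sphere (0 : E) 1 ×ˢ sphere (0 : E) 1) := by
      apply ContinuousOn.clm_apply _ continuous_snd.continuousOn
      exact hf.continuousOn_D1.comp continuous_fst.continuousOn (fun p hp => hs0 _ hp.1)
    have hcD2 : ContinuousOn (fun p : E × E => D2 f p.1 p.2 p.2)
        (sphere (0 : E) 1 ×ˢ sphere (0 : E) 1) := by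
      apply ContinuousOn.clm_apply _ continuous_snd.continuousOn
      apply ContinuousOn.clm_apply _ continuous_snd.continuousOn
      exact hf.continuousOn_D2.comp continuous_fst.continuousOn (fun p hp => hs0 _ hp.1)
    have hc : ContinuousOn (fun p : E × E => Phi f p.1 p.2)
        (sphere (0 : E) 1 ×ˢ sphere (0 : E) 1) := (hcD1.pow 2).add (hcf.mul hcD2)
    obtain ⟨p, hp, hmin⟩ := hcomp.exists_isMinOn hne' hc
    refine ⟨Phi f p.1 p.2, Phi_pos hf hpos hcurv (hs0 _ hp.1) (hs0 _ hp.2), ?_⟩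
    intro y w hy
    by_cases hw : w = 0
    · subst hw
      simp [Phi]
    have hyn : 0 < ‖y‖ := norm_pos_iff.2 hy
    have hwn : 0 < ‖w‖ := norm_pos_iff.2 hw
    set y' : E := ‖y‖⁻¹ • y with hy'
    set w' : E := ‖w‖⁻¹ • w with hw'
    have hy'1 : ‖y'‖ = 1 := by rw [hy', norm_smul, norm_inv, norm_norm]; field_simp
    have hw'1 : ‖w'‖ = 1 := by rw [hw', norm_smul, norm_inv, norm_norm]; field_simp
    have hm : Phi f p.1 p.2 ≤ Phi f y' w' := by
      have : (y', w') ∈ sphere (0 : E) 1 ×ˢ sphere (0 : E) 1 :=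
        ⟨mem_sphere_zero_iff_norm.2 hy'1, mem_sphere_zero_iff_norm.2 hw'1⟩
      exact hmin this
    have hye : y = ‖y‖ • y' := by rw [hy', smul_smul, mul_inv_cancel₀ hyn.ne', one_smul]
    have hwe : w = ‖w‖ • w' := by rw [hw', smul_smul, mul_inv_cancel₀ hwn.ne', one_smul]
    have hy'0 : y' ≠ 0 := hs0 _ (mem_sphere_zero_iff_norm.2 hy'1)
    have hkey : Phi f y w = ‖w‖ ^ 2 * Phi f y' w' := by
      have e1 : fderiv ℝ f y = fderiv ℝ f y' := by
        conv_lhs => rw [hye]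
        exact hf.fderiv_smul hyn hy'0
      have e2 : f y = ‖y‖ * f y' := by
        conv_lhs => rw [hye]
        exact hf.hom _ hyn _
      have e3 : ‖y‖ • D2 f y = D2 f y' := by
        conv_lhs => rw [hye]
        rw [norm_smul, norm_norm, hy'1, mul_one]
        exact hf.D2_smul hyn hy'0
      have e4 : ‖y‖ * D2 f y w w = D2 f y' w w := by
        rw [← e3]; simp
      unfold Phi
      rw [e1, e2]
      have e5 : ‖y‖ * f y' * D2 f y w w = f y' * D2 f y' w w := by rw [← e4]; ring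
      rw [e5]
      have e6 : fderiv ℝ f y' w = ‖w‖ * fderiv ℝ f y' w' := by
        conv_lhs => rw [hwe]
        simp
      have e7 : D2 f y' w w = ‖w‖ ^ 2 * D2 f y' w' w' := by
        conv_lhs => rw [hwe]
        simp
        ring
      rw [e6, e7]
      ring
    rw [hkey, mul_comm]
    exact mul_le_mul_of_nonneg_left hm (by positivity)
  · refine ⟨1, one_pos, fun y w hy => ?_⟩
    exfalso
    apply hne
    have hyn : 0 < ‖y‖ := norm_pos_iff.2 hy
    refine ⟨‖y‖⁻¹ • y, mem_sphere_zero_iff_norm.2 ?_⟩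
    rw [norm_smul, norm_inv, norm_norm]; field_simp

/-- (A1a) quantitative strict convexity of the support function. -/
theorem strong [FiniteDimensional ℝ E] {f : E → ℝ} (hf : Hom1 f)
    (hpos : ∀ x, x ≠ 0 → 0 < f x)
    (hcurv : ∀ u v : E, u ≠ 0 → v ≠ 0 → inner ℝ u v = 0 → 0 < D2 f u v v) :
    ∃ c : ℝ, 0 < c ∧ ∀ u v : E, ‖u‖ = 1 → ‖v‖ = 1 →
      c * ‖v - u‖ ^ 2 ≤ f v - fderiv ℝ f u v := by
  obtain ⟨m, hm0, hm⟩ := Phi_lower hf hpos hcurv
  obtain ⟨a, b, ha, hab, hbd⟩ := hf.bounds hpos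
  have hb : 0 < b := ha.trans_le hab
  refine ⟨min (m * a / (8 * b ^ 2)) (a / 2), by positivity, ?_⟩
  intro u v hu hv
  have hu0 : u ≠ 0 := by intro h; rw [h] at hu; simp at hu
  have hv0 : v ≠ 0 := by intro h; rw [h] at hv; simp at hv
  have hfu := hpos u hu0
  have hfv := hpos v hv0
  by_cases hvu : v = -u
  · subst hvu
    have h1 : ‖-u - u‖ ^ 2 = 4 := by
      have : -u - u = -((2 : ℝ) • u) := by rw [two_smul]; abel
      rw [this, norm_neg, norm_smul, hu]
      norm_num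
    rw [h1, map_neg, hf.euler hu0]
    have h2 := (hbd u hu).1
    have h3 := (hbd (-u) hv).1
    have h4 := min_le_right (m * a / (8 * b ^ 2)) (a / 2)
    linarith
  · set s : ℝ := f u / f v with hs
    have hs0 : 0 < s := by positivity
    set w : E := s • v - u with hw
    have hne : ∀ r ∈ Icc (0 : ℝ) 1, u + r • w ≠ 0 := by
      intro r hr h
      apply hvu
      have h1 : (1 - r) • u = -((r * s) • v) := by
        rw [hw] at h
        have : u + r • (s • v - u) = (1 - r) • u + (r * s) • v := by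
          rw [smul_sub, smul_smul, sub_smul, one_smul]; abel
        rw [this] at h
        exact eq_neg_of_add_eq_zero_left h
      have h2 : 1 - r = r * s := by
        have := congrArg norm h1
        rw [norm_neg, norm_smul, norm_smul, hu, hv, mul_one, mul_one,
          Real.norm_of_nonneg (by linarith [hr.2]), Real.norm_of_nonneg
            (mul_nonneg hr.1 hs0.le)] at this
        exact this
      have h3 : 1 - r ≠ 0 := by
        intro h3
        have hr1 : r = 1 := by linarith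
        rw [h3, hr1] at h2
        linarith
      rw [← h2, ← smul_neg] at h1
      have h4 := smul_right_injective E h3 h1
      rw [h4, neg_neg]
    have key := taylor1 (φ := fun r => 1 / 2 * f (u + r • w) ^ 2)
      (φ' := fun r => f (u + r • w) * fderiv ℝ f (u + r • w) w)
      (φ'' := fun r => Phi f (u + r • w) w) (C := m * ‖w‖ ^ 2)
      (by
        intro r hr
        have := ((hf.line1 (hne r hr)).pow 2).const_mul (1 / 2)
        refine this.congr_deriv ?_
        norm_num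
        ring)
      (by
        intro r hr
        have := (hf.line1 (hne r hr)).mul (hf.line2 (hne r hr))
        refine this.congr_deriv ?_
        unfold Phi
        ring)
      (by
        intro r hr
        exact hm _ _ (hne r hr))
    simp only [zero_smul, add_zero, one_smul] at key
    have e1 : u + w = s • v := by rw [hw]; abel
    rw [e1, hf.hom s hs0 v] at key
    have e2 : fderiv ℝ f u w = s * fderiv ℝ f u v - f u := by
      rw [hw, map_sub, map_smul, hf.euler hu0, smul_eq_mul]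
    have e3 : s * f v = f u := by rw [hs]; field_simp
    rw [e2, e3] at key
    -- ‖v - u‖ ≤ 2 ‖w‖
    have h5 : ‖v - u‖ ≤ 2 * ‖w‖ := by
      have h6 : v - u = w + (1 - s) • v := by rw [hw, sub_smul, one_smul]; abel
      have h7 : |1 - s| ≤ ‖w‖ := by
        have h8 := abs_norm_sub_norm_le (s • v) u
        rw [norm_smul, hv, hu, mul_one, Real.norm_of_nonneg hs0.le] at h8
        rw [abs_sub_comm]
        exact h8
      calc ‖v - u‖ = ‖w + (1 - s) • v‖ := by rw [h6]
        _ ≤ ‖w‖ + ‖(1 - s) • v‖ := norm_add_le _ _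
        _ = ‖w‖ + |1 - s| := by rw [norm_smul, hv, mul_one, Real.norm_eq_abs]
        _ ≤ 2 * ‖w‖ := by linarith
    have h9 : ‖v - u‖ ^ 2 ≤ 4 * ‖w‖ ^ 2 := by
      have h10 : ‖v - u‖ ^ 2 ≤ (2 * ‖w‖) ^ 2 :=
        pow_le_pow_left₀ (norm_nonneg _) h5 2
      nlinarith
    -- main
    have h11 : m / 2 * ‖w‖ ^ 2 ≤ f u * (f u - s * fderiv ℝ f u v) := by nlinarith
    have h12 : f u * (f u - s * fderiv ℝ f u v) = f u ^ 2 / f v * (f v - fderiv ℝ f u v) := by
      rw [hs]; field_simp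
    rw [h12] at h11
    have h13 : 0 ≤ f v - fderiv ℝ f u v := by
      have h14 : 0 ≤ f u ^ 2 / f v * (f v - fderiv ℝ f u v) :=
        le_trans (by positivity) h11
      have h15 : 0 < f u ^ 2 / f v := by positivity
      exact nonneg_of_mul_nonneg_right h14 h15
    have h16 : f u ^ 2 / f v ≤ b ^ 2 / a := by
      apply div_le_div₀ (by positivity) _ ha (hbd v hv).1
      exact pow_le_pow_left₀ hfu.le (hbd u hu).2 2
    have h17 : m / 2 * ‖w‖ ^ 2 ≤ b ^ 2 / a * (f v - fderiv ℝ f u v) :=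
      h11.trans (mul_le_mul_of_nonneg_right h16 h13)
    calc min (m * a / (8 * b ^ 2)) (a / 2) * ‖v - u‖ ^ 2
        ≤ m * a / (8 * b ^ 2) * ‖v - u‖ ^ 2 :=
          mul_le_mul_of_nonneg_right (min_le_left _ _) (by positivity)
      _ ≤ m * a / (8 * b ^ 2) * (4 * ‖w‖ ^ 2) :=
          mul_le_mul_of_nonneg_left h9 (by positivity)
      _ = a / b ^ 2 * (m / 2 * ‖w‖ ^ 2) := by field_simp; ring
      _ ≤ a / b ^ 2 * (b ^ 2 / a * (f v - fderiv ℝ f u v)) :=
          mul_le_mul_of_nonneg_left h17 (by positivity)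
      _ = f v - fderiv ℝ f u v := by field_simp

/-- (A1b) second order bound for a general homogeneous function -/
theorem upper [FiniteDimensional ℝ E] {g : E → ℝ} (hg : Hom1 g) :
    ∃ C : ℝ, 0 < C ∧ ∀ u v : E, ‖u‖ = 1 → ‖v‖ = 1 →
      |g v - fderiv ℝ g u v| ≤ C * ‖v - u‖ ^ 2 := by
  have hs0 : ∀ u ∈ sphere (0 : E) 1, u ≠ 0 := by
    intro u hu h
    rw [h] at hu; simp at hu
  have hsub : sphere (0 : E) 1 ⊆ {0}ᶜ := fun u hu => hs0 u hu
  have hcn2 : ContinuousOn (fun x => ‖D2 g x‖) (sphere (0 : E) 1) :=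
    (continuous_norm (E := E →L[ℝ] E →L[ℝ] ℝ)).comp_continuousOn (hg.continuousOn_D2.mono hsub)
  have hcn1 : ContinuousOn (fun x => ‖fderiv ℝ g x‖) (sphere (0 : E) 1) :=
    (hg.continuousOn_D1.mono hsub).norm
  obtain ⟨M, hM⟩ := (isCompact_sphere (0 : E) 1).exists_bound_of_continuousOn hcn2
  obtain ⟨M1, hM1⟩ := (isCompact_sphere (0 : E) 1).exists_bound_of_continuousOn hcn1
  replace hM : ∀ x ∈ sphere (0 : E) 1, ‖D2 g x‖ ≤ M := fun x hx => (le_abs_self _).trans (hM x hx)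
  replace hM1 : ∀ x ∈ sphere (0 : E) 1, ‖fderiv ℝ g x‖ ≤ M1 :=
    fun x hx => (le_abs_self _).trans (hM1 x hx)
  have hgc : ContinuousOn g (sphere (0 : E) 1) := fun u hu =>
    (hg.contDiffAt (hs0 u hu)).continuousAt.continuousWithinAt
  obtain ⟨M0, hM0⟩ := (isCompact_sphere (0 : E) 1).exists_bound_of_continuousOn hgc
  refine ⟨|M| + |M0| + |M1| + 1, by positivity, fun u v hu hv => ?_⟩
  have hu0 : u ≠ 0 := hs0 u (mem_sphere_zero_iff_norm.2 hu)
  by_cases hfar : 1 ≤ ‖v - u‖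
  · have h1 := hM0 v (mem_sphere_zero_iff_norm.2 hv)
    have h2 := hM1 u (mem_sphere_zero_iff_norm.2 hu)
    have h3 : |fderiv ℝ g u v| ≤ |M1| := by
      have := (fderiv ℝ g u).le_opNorm v
      rw [hv, mul_one] at this
      exact this.trans (h2.trans (le_abs_self _))
    have h4 : |g v| ≤ |M0| := h1.trans (le_abs_self _)
    have h5 : (1 : ℝ) ≤ ‖v - u‖ ^ 2 := by nlinarith
    calc |g v - fderiv ℝ g u v| ≤ |g v| + |fderiv ℝ g u v| := abs_sub _ _
      _ ≤ |M| + |M0| + |M1| + 1 := by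
          have := abs_nonneg M
          linarith
      _ ≤ (|M| + |M0| + |M1| + 1) * ‖v - u‖ ^ 2 := by
          have h6 : 0 ≤ |M| + |M0| + |M1| + 1 := by positivity
          nlinarith
  · push Not at hfar
    set w : E := v - u with hw
    -- norm along the segment at least 1/2
    have hwn : ‖w‖ ^ 2 = 2 - 2 * inner ℝ u v := by
      rw [hw, norm_sub_sq_real, hu, hv, real_inner_comm]; ring
    have hnorm : ∀ r ∈ Icc (0 : ℝ) 1, 1 / 2 ≤ ‖u + r • w‖ := by
      intro r hr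
      have h1 : ‖u + r • w‖ ^ 2 = 1 - r * (1 - r) * ‖w‖ ^ 2 := by
        rw [norm_add_sq_real, norm_smul, hu, inner_smul_right, Real.norm_of_nonneg hr.1]
        have : inner ℝ u w = - ‖w‖ ^ 2 / 2 := by
          rw [hwn, hw, inner_sub_right, real_inner_self_eq_norm_sq, hu]; ring
        rw [this]
        ring
      have h2 : r * (1 - r) ≤ 1 / 4 := by nlinarith [sq_nonneg (r - 1 / 2)]
      have h3 : ‖w‖ ^ 2 ≤ 1 := by
        have := norm_nonneg w
        nlinarith
      have h4 : 0 ≤ r * (1 - r) := mul_nonneg hr.1 (by linarith [hr.2])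
      have h5 : (1 / 2) ^ 2 ≤ ‖u + r • w‖ ^ 2 := by
        rw [h1]; nlinarith [sq_nonneg ‖w‖]
      exact le_of_sq_le_sq h5 (norm_nonneg _)
    have hne : ∀ r ∈ Icc (0 : ℝ) 1, u + r • w ≠ 0 := by
      intro r hr h
      have := hnorm r hr
      rw [h, norm_zero] at this
      linarith
    have hD2 : ∀ y : E, 1 / 2 ≤ ‖y‖ → |D2 g y w w| ≤ 2 * |M| * ‖w‖ ^ 2 := by
      intro y hy
      have hyn : 0 < ‖y‖ := by linarith
      have hy0 : y ≠ 0 := norm_pos_iff.1 hyn
      set y' : E := ‖y‖⁻¹ • y with hy'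
      have hy'1 : ‖y'‖ = 1 := by rw [hy', norm_smul, norm_inv, norm_norm]; field_simp
      have hye : y = ‖y‖ • y' := by rw [hy', smul_smul, mul_inv_cancel₀ hyn.ne', one_smul]
      have hy'0 : y' ≠ 0 := hs0 _ (mem_sphere_zero_iff_norm.2 hy'1)
      have e3 : ‖y‖ • D2 g y = D2 g y' := by
        conv_lhs => rw [hye]
        rw [norm_smul, norm_norm, hy'1, mul_one]
        exact hg.D2_smul hyn hy'0
      have e4 : ‖y‖ * D2 g y w w = D2 g y' w w := by
        rw [← e3]; simp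
      have h6 : |D2 g y' w w| ≤ |M| * ‖w‖ ^ 2 := by
        have h7 := (D2 g y').le_opNorm₂ w w
        have h8 := hM y' (mem_sphere_zero_iff_norm.2 hy'1)
        rw [Real.norm_eq_abs] at h7
        calc |D2 g y' w w| ≤ ‖D2 g y'‖ * ‖w‖ * ‖w‖ := h7
          _ ≤ |M| * ‖w‖ * ‖w‖ := by
              apply mul_le_mul_of_nonneg_right _ (norm_nonneg _)
              exact mul_le_mul_of_nonneg_right (h8.trans (le_abs_self _)) (norm_nonneg _)
          _ = |M| * ‖w‖ ^ 2 := by ring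
      rw [← e4, abs_mul, abs_of_pos hyn] at h6
      have h9 := abs_nonneg (D2 g y w w)
      nlinarith
    have kp := taylor1 (φ := fun r => g (u + r • w)) (φ' := fun r => fderiv ℝ g (u + r • w) w)
      (φ'' := fun r => D2 g (u + r • w) w w) (C := -(2 * |M| * ‖w‖ ^ 2))
      (fun r hr => hg.line1 (hne r hr)) (fun r hr => hg.line2 (hne r hr))
      (fun r hr => (abs_le.1 (hD2 _ (hnorm r hr))).1)
    have km := taylor1 (φ := fun r => -g (u + r • w)) (φ' := fun r => -fderiv ℝ g (u + r • w) w)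
      (φ'' := fun r => -D2 g (u + r • w) w w) (C := -(2 * |M| * ‖w‖ ^ 2))
      (fun r hr => (hg.line1 (hne r hr)).neg) (fun r hr => (hg.line2 (hne r hr)).neg)
      (fun r hr => by
        have := (abs_le.1 (hD2 _ (hnorm r hr))).2
        linarith)
    simp only [zero_smul, add_zero, one_smul] at kp km
    have e1 : u + w = v := by rw [hw]; abel
    have e2 : fderiv ℝ g u w = fderiv ℝ g u v - g u := by
      rw [hw, map_sub, hg.euler hu0]
    rw [e1, e2] at kp km
    have h10 : |g v - fderiv ℝ g u v| ≤ |M| * ‖w‖ ^ 2 := by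
      rw [abs_le]
      constructor <;> linarith
    refine h10.trans (mul_le_mul_of_nonneg_right ?_ (by positivity))
    have := abs_nonneg M0
    have := abs_nonneg M1
    linarith

end Vale.Agent.P227.Loc
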