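import Vale.Agent.P227.Loc.Quad
import Vale.Agent.P227.Loc.Defs
import Vale.Agent.P227.Normal

open MeasureTheory Set Metric Filter Topology

namespace Vale.Agent.P227.Loc

variable {n : ℕ}

theorem C2Plus.hom1 {K : Set (EV n)} (hK : SymConvexBody K) (hC : C2Plus K) :
    Hom1 (supportFn K) where
  hom := fun _ hs x => supportFn_smul hK.isCompact ⟨0, hK.zero_mem⟩ hs.le x
  smooth := hC.smooth

theorem hess_eq {f : EV n → ℝ} (hf : Hom1 f) {u : EV n} (hu : u ≠ 0) (v : EV n) :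
    hess f u v = D2 f u v v := by
  have hne : ∀ᶠ r in 𝓝 (0 : ℝ), u + r • v ≠ 0 := by
    have hc : ContinuousAt (fun r : ℝ => u + r • v) 0 := by fun_prop
    have : u + (0 : ℝ) • v ≠ 0 := by simpa using hu
    exact hc.eventually_ne this
  have h1 : (fun r : ℝ => deriv (fun s : ℝ => f (u + s • v)) r) =ᶠ[𝓝 0]
      fun r : ℝ => fderiv ℝ f (u + r • v) v := by
    filter_upwards [hne] with r hr
    exact (hf.line1 hr).deriv
  have h0 : u + (0 : ℝ) • v ≠ 0 := by simpa using hu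
  unfold hess
  rw [h1.deriv_eq, (hf.line2 h0).deriv, zero_smul, add_zero]

theorem C2Plus.curv' {K : Set (EV n)} (hK : SymConvexBody K) (hC : C2Plus K) :
    ∀ u v : EV n, u ≠ 0 → v ≠ 0 → inner ℝ u v = 0 → 0 < D2 (supportFn K) u v v := by
  intro u v hu hv huv
  rw [← hess_eq (hC.hom1 hK) hu]
  exact hC.curv u v hu hv huv

theorem C2Plus.strong {K : Set (EV n)} (hK : SymConvexBody K) (hC : C2Plus K) :
    ∃ c : ℝ, 0 < c ∧ ∀ u v : EV n, ‖u‖ = 1 → ‖v‖ = 1 →
      c * ‖v - u‖ ^ 2 ≤ supportFn K v - fderiv ℝ (supportFn K) u v :=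
  Loc.strong (hC.hom1 hK) (fun _ hx => hK.supportFn_pos hx) (hC.curv' hK)

/-- a positive even function which has supporting linear functionals at unit vectors is the
support function of its Wulff body (on unit vectors) -/
theorem supportFn_wulff {F : EV n → ℝ} {a b : ℝ} (ha : 0 < a)
    (hFa : ∀ u, ‖u‖ = 1 → a ≤ F u) (hFb : ∀ u, ‖u‖ = 1 → F u ≤ b)
    (heven : ∀ u, F (-u) = F u)
    (hgrad : ∀ u, ‖u‖ = 1 → ∃ x : EV n, inner ℝ x u = F u ∧ ∀ v, ‖v‖ = 1 → inner ℝ x v ≤ F v)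
    {u : EV n} (hu : ‖u‖ = 1) : supportFn (wulff F) u = F u := by
  have hW := wulff_symConvexBody ha hFa hFb heven
  apply le_antisymm
  · exact supportFn_le ⟨0, hW.zero_mem⟩ fun x hx => hx u hu
  · obtain ⟨x, hxu, hx⟩ := hgrad u hu
    rw [← hxu]
    exact inner_le_supportFn hW.isCompact (fun v hv => hx v hv) u

theorem Hom1.bound_sphere {g : EV n → ℝ} (hg : Hom1 g) :
    ∃ G : ℝ, 0 ≤ G ∧ ∀ u : EV n, ‖u‖ = 1 → |g u| ≤ G := by
  have hs0 : ∀ u ∈ sphere (0 : EV n) 1, u ≠ 0 := by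
    intro u hu h
    rw [h] at hu; simp at hu
  have hgc : ContinuousOn g (sphere (0 : EV n) 1) := fun u hu =>
    (hg.contDiffAt (hs0 u hu)).continuousAt.continuousWithinAt
  obtain ⟨M0, hM0⟩ := (isCompact_sphere (0 : EV n) 1).exists_bound_of_continuousOn hgc
  exact ⟨|M0|, abs_nonneg _, fun u hu =>
    (hM0 u (mem_sphere_zero_iff_norm.2 hu)).trans (le_abs_self _)⟩

/-- (A1c): small even `C²` perturbations of the support function of a `C²₊` body are support
functions -/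
theorem supportFn_pert {K : Set (EV n)} (hK : SymConvexBody K) (hC : C2Plus K) {g : EV n → ℝ}
    (hg : Hom1 g) (heven : ∀ u, g (-u) = g u) :
    ∀ᶠ t in 𝓝 (0 : ℝ), SymConvexBody (wulff (fun u => supportFn K u + t * g u)) ∧
      ∀ u : EV n, ‖u‖ = 1 →
        supportFn (wulff (fun u => supportFn K u + t * g u)) u = supportFn K u + t * g u := by
  obtain ⟨c, hc0, hc⟩ := hC.strong hK
  obtain ⟨C, hC0, hCb⟩ := upper hg
  obtain ⟨G, hG0, hG⟩ := hg.bound_sphere
  obtain ⟨a, b, ha, hab, hbd⟩ := (hC.hom1 hK).bounds (fun _ hx => hK.supportFn_pos hx)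
  have hδ : 0 < min (c / C) (a / (2 * (G + 1))) := by positivity
  filter_upwards [Metric.ball_mem_nhds (0 : ℝ) hδ] with t ht
  rw [mem_ball_zero_iff, Real.norm_eq_abs, lt_min_iff] at ht
  obtain ⟨ht1, ht2⟩ := ht
  rw [lt_div_iff₀ hC0] at ht1
  rw [lt_div_iff₀ (by positivity)] at ht2
  have htG : |t| * G ≤ a / 2 := by
    have := abs_nonneg t
    nlinarith
  have h1 : ∀ u : EV n, ‖u‖ = 1 → a / 2 ≤ supportFn K u + t * g u := by
    intro u hu
    have h2 : |t * g u| ≤ |t| * G := by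
      rw [abs_mul]; exact mul_le_mul_of_nonneg_left (hG u hu) (abs_nonneg _)
    have h3 := (abs_le.1 h2).1
    have h4 := (hbd u hu).1
    linarith
  have h2 : ∀ u : EV n, ‖u‖ = 1 → supportFn K u + t * g u ≤ b + a := by
    intro u hu
    have h2 : |t * g u| ≤ |t| * G := by
      rw [abs_mul]; exact mul_le_mul_of_nonneg_left (hG u hu) (abs_nonneg _)
    have h3 := (abs_le.1 h2).2
    have h4 := (hbd u hu).2
    linarith
  have h3 : ∀ u : EV n, supportFn K (-u) + t * g (-u) = supportFn K u + t * g u := by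
    intro u
    rw [hK.supportFn_neg, heven]
  have ha2 : 0 < a / 2 := by positivity
  refine ⟨wulff_symConvexBody ha2 h1 h2 h3, fun u hu => supportFn_wulff ha2 h1 h2 h3 ?_ hu⟩
  intro u hu
  have hu0 : u ≠ 0 := by intro h; rw [h] at hu; simp at hu
  refine ⟨(InnerProductSpace.toDual ℝ (EV n)).symm
    (fderiv ℝ (supportFn K) u + t • fderiv ℝ g u), ?_, fun v hv => ?_⟩
  · rw [InnerProductSpace.toDual_symm_apply, add_apply, smul_apply, (hC.hom1 hK).euler hu0,
      hg.euler hu0, smul_eq_mul]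
  · rw [InnerProductSpace.toDual_symm_apply, add_apply, smul_apply, smul_eq_mul]
    have h5 := hc u v hu hv
    have h6 := hCb u v hu hv
    have h7 : |t * (g v - fderiv ℝ g u v)| ≤ c * ‖v - u‖ ^ 2 := by
      rw [abs_mul]
      calc |t| * |g v - fderiv ℝ g u v| ≤ |t| * (C * ‖v - u‖ ^ 2) :=
            mul_le_mul_of_nonneg_left h6 (abs_nonneg _)
        _ = (|t| * C) * ‖v - u‖ ^ 2 := by ring
        _ ≤ c * ‖v - u‖ ^ 2 := mul_le_mul_of_nonneg_right ht1.le (by positivity)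
    have h8 := (abs_le.1 h7).1
    have h9 : t * (g v - fderiv ℝ g u v) = t * g v - t * fderiv ℝ g u v := by ring
    rw [h9] at h8
    linarith

end Vale.Agent.P227.Loc
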