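import Vale.Agent.P227.Loc.Limit
import Vale.Agent.P227.ZonoidMain

open MeasureTheory Set Metric Filter Topology
open scoped ENNReal

namespace Vale.Agent.P227.Loc

variable {n : ℕ}

/-- real-variable lemma: second order expansion of the exponential along a family -/
theorem exp_tendsto {R : ℝ → ℝ} {a : ℝ} (h : Tendsto (fun t => R t / t) (𝓝[≠] 0) (𝓝 a)) :
    Tendsto (fun t => (Real.exp (R t) - 1 - R t) / t ^ 2) (𝓝[≠] 0) (𝓝 (a ^ 2 / 2)) := by
  have ht : Tendsto (fun t : ℝ => t) (𝓝[≠] 0) (𝓝 0) := tendsto_nhdsWithin_of_tendsto_nhds tendsto_id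
  have hR : Tendsto R (𝓝[≠] 0) (𝓝 0) := by
    have h1 := h.mul ht
    rw [mul_zero] at h1
    refine h1.congr' ?_
    filter_upwards [self_mem_nhdsWithin] with t ht0
    have : t ≠ 0 := ht0
    field_simp
  have hsq : Tendsto (fun t => (R t / t) ^ 2 / 2) (𝓝[≠] 0) (𝓝 (a ^ 2 / 2)) :=
    (h.pow 2).div_const 2
  have herr : Tendsto (fun t => (Real.exp (R t) - 1 - R t) / t ^ 2 - (R t / t) ^ 2 / 2)
      (𝓝[≠] 0) (𝓝 0) := by
    have hb : Tendsto (fun t => |R t| * (R t / t) ^ 2) (𝓝[≠] 0) (𝓝 0) := by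
      have := hR.abs.mul (h.pow 2)
      rwa [abs_zero, zero_mul] at this
    apply squeeze_zero_norm' _ hb
    have hsm : ∀ᶠ t in 𝓝[≠] (0 : ℝ), |R t| < 1 := by
      have := hR.abs
      rw [abs_zero] at this
      exact this.eventually_lt_const one_pos
    filter_upwards [hsm, self_mem_nhdsWithin] with t ht1 ht0
    have ht0' : t ≠ 0 := ht0
    have h2 := Real.exp_bound ht1.le (n := 3) (by norm_num)
    simp only [Finset.sum_range_succ, Finset.sum_range_zero] at h2
    norm_num [Nat.factorial] at h2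
    have e : (Real.exp (R t) - 1 - R t) / t ^ 2 - (R t / t) ^ 2 / 2 =
        (Real.exp (R t) - (1 + R t + R t ^ 2 / 2)) / t ^ 2 := by
      field_simp
      ring
    rw [e, Real.norm_eq_abs, abs_div, abs_of_pos (show 0 < t ^ 2 by positivity),
      div_le_iff₀ (by positivity)]
    have e2 : |R t| * (R t / t) ^ 2 * t ^ 2 = |R t| ^ 3 := by
      have : |R t| ^ 3 = |R t| * |R t| ^ 2 := by ring
      rw [this, sq_abs]
      field_simp
    rw [e2]
    have h3 : 0 ≤ |R t| ^ 3 := by positivity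
    linarith
  have := herr.add hsq
  simpa using this

/-- a choice of dual quadratic forms of the Hessians of the support function -/
def IsDual (K : Set (EV n)) (S : EV n → ((EV n →L[ℝ] ℝ) →ₗ[ℝ] EV n)) : Prop :=
  ∀ y : EV n, y ≠ 0 → ∀ p : EV n →L[ℝ] ℝ, p y = 0 →
    (∀ (z : EV n) (t : ℝ), -(t ^ 2 * p (S y p)) / 2 ≤
      t * p z + D2 (supportFn K) y z z / supportFn K y / 2) ∧
    (∃ z : EV n, p z + D2 (supportFn K) y z z / supportFn K y / 2 = -(p (S y p)) / 2)

theorem exists_dual {K : Set (EV n)} (hK : SymConvexBody K) (hC : C2Plus K) :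
    ∃ S : EV n → ((EV n →L[ℝ] ℝ) →ₗ[ℝ] EV n), IsDual K S := by
  have h : ∀ y : EV n, ∃ S : (EV n →L[ℝ] ℝ) →ₗ[ℝ] EV n, y ≠ 0 → ∀ p : EV n →L[ℝ] ℝ, p y = 0 →
      (∀ (z : EV n) (t : ℝ), -(t ^ 2 * p (S p)) / 2 ≤
        t * p z + D2 (supportFn K) y z z / supportFn K y / 2) ∧
      (∃ z : EV n, p z + D2 (supportFn K) y z z / supportFn K y / 2 = -(p (S p)) / 2) := by
    intro y
    by_cases hy : y = 0
    · exact ⟨0, fun h => absurd hy h⟩
    · obtain ⟨S, hS⟩ := exists_S (hC.hom1 hK) (fun _ hx => hK.supportFn_pos hx) (hC.curv' hK) y hy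
      exact ⟨S, fun _ => hS⟩
  choose S hS using h
  exact ⟨S, hS⟩

/-- the quadratic form `⟨A⁻¹ ∇ψ, ∇ψ⟩` at a normal -/
noncomputable def qf (K : Set (EV n)) (S : EV n → ((EV n →L[ℝ] ℝ) →ₗ[ℝ] EV n)) (g : EV n → ℝ)
    (y : EV n) : ℝ :=
  fderiv ℝ (psi K g) y (S y (fderiv ℝ (psi K g) y))

/-- volume of the perturbed body -/
noncomputable def Vol (K : Set (EV n)) (φ : EV n → ℝ) : ℝ := evol (wexp K φ)

theorem ae_ne_zero (hn : 0 < n) (A : Set (EV n)) : ∀ᵐ x ∂(volume.restrict A), x ≠ 0 := by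
  have : Nontrivial (EV n) := by
    have : 0 < Module.finrank ℝ (EV n) := by rw [finrank_euclideanSpace_fin]; exact hn
    exact Module.nontrivial_of_finrank_pos this
  apply ae_restrict_of_ae
  rw [ae_iff]
  simp

theorem finite_restrict {K : Set (EV n)} (hK : SymConvexBody K) :
    IsFiniteMeasure (volume.restrict (interior K)) := by
  refine ⟨?_⟩
  rw [Measure.restrict_apply_univ, evol_interior hK]
  exact hK.isCompact.measure_lt_top

theorem lrat_measurable {K : Set (EV n)} (hK : SymConvexBody K) {φ : EV n → ℝ} (hφ : Adm φ) :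
    Measurable (lrat K φ) := by
  have hP := wexp_scb hK hφ
  exact (Real.measurable_log.comp hK.continuous_gauge.measurable).sub
    (Real.measurable_log.comp hP.continuous_gauge.measurable)

theorem Vol_eq (hn : 0 < n) {K : Set (EV n)} (hK : SymConvexBody K) {φ : EV n → ℝ}
    (hφ : Adm φ) : Vol K φ = ∫ x in interior K, Real.exp (n * lrat K φ x) := by
  have hP := wexp_scb hK hφ
  have h1 : Vol K φ = ∫ x in interior K, (gauge K x / gauge (wexp K φ) x) ^ n := by
    rw [Vol, evol, evol_eq_integral hn hK hP, integral_eq_lintegral_of_nonneg_ae]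
    · apply Filter.Eventually.of_forall
      intro x
      exact pow_nonneg (div_nonneg (gauge_nonneg _) (gauge_nonneg _)) _
    · exact ((hK.continuous_gauge.measurable.div
        hP.continuous_gauge.measurable).pow_const _).aestronglyMeasurable
  rw [h1]
  apply integral_congr_ae
  filter_upwards [ae_ne_zero hn (interior K)] with x hx
  have p1 := hK.gauge_pos hx
  have p2 := hP.gauge_pos hx
  rw [← Real.exp_log (div_pos p1 p2), ← Real.exp_nat_mul, Real.log_div p1.ne' p2.ne']
  rfl

theorem measurable_adm {φ : EV n → ℝ} (hφ : Adm φ) : Measurable φ :=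
  measurable_of_continuousOn_compl_singleton 0 hφ.cont

/-- Second order expansion of the volume. -/
theorem vol_expansion (hn : 0 < n) {K : Set (EV n)} (hK : SymConvexBody K) (hC : C2Plus K)
    {S : EV n → ((EV n →L[ℝ] ℝ) →ₗ[ℝ] EV n)} (hS : IsDual K S) {ν : EV n → EV n}
    (hν : IsConeNormal K ν) {g χ : EV n → ℝ} {φ : ℝ → EV n → ℝ} (hg : Pt g)
    (hF : Fam K g χ φ) :
    Tendsto (fun t => (Vol K (φ t) - evol K -
        t * (n * ∫ x in interior K, psi K g (ν x))) / t ^ 2) (𝓝[≠] 0)
      (𝓝 (∫ x in interior K, (n * (χ (ν x) - qf K S g (ν x) / 2) +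
        (n : ℝ) ^ 2 / 2 * psi K g (ν x) ^ 2))) := by
  have hfin := finite_restrict hK
  set ρ : Measure (EV n) := volume.restrict (interior K) with hρ
  have hne0 : ∀ᵐ x ∂ρ, x ≠ 0 := ae_ne_zero hn _
  have haeν : ∀ᵐ x ∂ρ, ‖ν x‖ = 1 ∧ inner ℝ x (ν x) = gauge K x * supportFn K (ν x) :=
    ae_restrict_of_ae_restrict_of_subset interior_subset hν.2
  obtain ⟨M, hM0, hdom⟩ := fam_dom hn hK hC hg hF
  obtain ⟨P, hP0, hP⟩ := (psi_adm hK hg).bound
  have hn' : (0 : ℝ) < n := by exact_mod_cast hn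
  have hψm : Measurable (fun x => psi K g (ν x)) := (measurable_adm (psi_adm hK hg)).comp hν.1
  have hψi : Integrable (fun x => psi K g (ν x)) ρ := by
    apply Integrable.of_bound hψm.aestronglyMeasurable P
    filter_upwards [haeν] with x hx
    exact hP _ hx.1
  set G : ℝ → EV n → ℝ := fun t x =>
    (Real.exp (n * lrat K (φ t) x) - 1 - t * (n * psi K g (ν x))) / t ^ 2 with hG
  -- small parameters
  set η : ℝ := min 1 (1 / (n * (P + M))) with hη
  have hPM : 0 < P + M := by positivity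
  have hη0 : 0 < η := by positivity
  have hsmall : ∀ᶠ t in 𝓝 (0 : ℝ), |t| < η := by
    filter_upwards [Metric.ball_mem_nhds (0 : ℝ) hη0] with t ht
    rwa [mem_ball_zero_iff, Real.norm_eq_abs] at ht
  -- pointwise bound
  have hbound : ∀ᶠ t in 𝓝[≠] (0 : ℝ), ∀ᵐ x ∂ρ,
      |n * lrat K (φ t) x| ≤ 1 ∧ ‖G t x‖ ≤ n ^ 2 * (P + M) ^ 2 + n * M := by
    have hev := (hsmall.and hdom).filter_mono (nhdsWithin_le_nhds (s := {(0 : ℝ)}ᶜ))
    filter_upwards [hev, self_mem_nhdsWithin] with t ht ht0
    obtain ⟨hts, htd⟩ := ht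
    have ht0' : t ≠ 0 := ht0
    have ht2 : 0 < t ^ 2 := by positivity
    have hta := abs_nonneg t
    filter_upwards [hne0, haeν] with x hx hνx
    obtain ⟨h1, _⟩ := htd x (ν x) hx hνx.1 hνx.2
    have h2 := hP _ hνx.1
    have ht1 : |t| ≤ 1 := hts.le.trans (min_le_left _ _)
    have h3 : |lrat K (φ t) x| ≤ (P + M) * |t| := by
      have h4 := abs_add_le (lrat K (φ t) x - t * psi K g (ν x)) (t * psi K g (ν x))
      rw [sub_add_cancel] at h4
      have h5 : |t * psi K g (ν x)| ≤ P * |t| := by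
        rw [abs_mul, mul_comm]; exact mul_le_mul_of_nonneg_right h2 hta
      have h6 : M * t ^ 2 ≤ M * |t| := by
        apply mul_le_mul_of_nonneg_left _ hM0.le
        rw [← sq_abs]
        nlinarith
      calc _ ≤ _ := h4
        _ ≤ M * |t| + P * |t| := add_le_add (h1.trans h6) h5
        _ = (P + M) * |t| := by ring
    have h7 : |n * lrat K (φ t) x| ≤ n * (P + M) * |t| := by
      rw [abs_mul, abs_of_pos hn']
      calc _ ≤ n * ((P + M) * |t|) := mul_le_mul_of_nonneg_left h3 hn'.le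
        _ = _ := by ring
    have h8 : |n * lrat K (φ t) x| ≤ 1 := by
      refine h7.trans ?_
      calc n * (P + M) * |t| ≤ n * (P + M) * (1 / (n * (P + M))) := by
            apply mul_le_mul_of_nonneg_left _ (by positivity)
            exact hts.le.trans (min_le_right _ _)
        _ = 1 := by field_simp
    refine ⟨h8, ?_⟩
    have h9 := Real.abs_exp_sub_one_sub_id_le h8
    have h10 : (n * lrat K (φ t) x) ^ 2 ≤ n ^ 2 * (P + M) ^ 2 * t ^ 2 := by
      rw [← sq_abs]
      calc |n * lrat K (φ t) x| ^ 2 ≤ (n * (P + M) * |t|) ^ 2 :=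
            pow_le_pow_left₀ (abs_nonneg _) h7 2
        _ = n ^ 2 * (P + M) ^ 2 * |t| ^ 2 := by ring
        _ = _ := by rw [sq_abs]
    rw [hG]
    simp only
    rw [Real.norm_eq_abs, abs_div, abs_of_pos ht2, div_le_iff₀ ht2]
    have e : Real.exp (n * lrat K (φ t) x) - 1 - t * (n * psi K g (ν x)) =
        (Real.exp (n * lrat K (φ t) x) - 1 - n * lrat K (φ t) x) +
        n * (lrat K (φ t) x - t * psi K g (ν x)) := by ring
    rw [e]
    have h11 : |n * (lrat K (φ t) x - t * psi K g (ν x))| ≤ n * M * t ^ 2 := by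
      rw [abs_mul, abs_of_pos hn']
      calc _ ≤ n * (M * t ^ 2) := mul_le_mul_of_nonneg_left h1 hn'.le
        _ = _ := by ring
    calc _ ≤ _ := abs_add_le _ _
      _ ≤ n ^ 2 * (P + M) ^ 2 * t ^ 2 + n * M * t ^ 2 := add_le_add (h9.trans h10) h11
      _ = _ := by ring
  have hlim : Tendsto (fun t => ∫ x, G t x ∂ρ) (𝓝[≠] 0)
      (𝓝 (∫ x, (n * (χ (ν x) - qf K S g (ν x) / 2) +
        (n : ℝ) ^ 2 / 2 * psi K g (ν x) ^ 2) ∂ρ)) := by
    apply tendsto_integral_filter_of_dominated_convergence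
      (fun _ => n ^ 2 * (P + M) ^ 2 + n * M)
    · filter_upwards [hF.adm.filter_mono (nhdsWithin_le_nhds (s := {(0 : ℝ)}ᶜ))] with t ht
      apply Measurable.aestronglyMeasurable
      apply Measurable.div_const
      apply Measurable.sub
      · apply Measurable.sub _ measurable_const
        exact Real.measurable_exp.comp ((lrat_measurable hK ht).const_mul _)
      · exact (hψm.const_mul _).const_mul _
    · filter_upwards [hbound] with t ht
      filter_upwards [ht] with x hx
      exact hx.2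
    · exact integrable_const _
    · filter_upwards [hne0, haeν] with x hx hνx
      have hν0 := ne0 hνx.1
      obtain ⟨hq1, hq2⟩ := hS (ν x) hν0 (fderiv ℝ (psi K g) (ν x))
        (psi_fderiv_self hK hC hg hν0)
      have h1 := fam_tendsto hn hK hC hg hF hx hνx.1 hνx.2 (q := qf K S g (ν x)) hq1 hq2
      have h2 : Tendsto (fun t => (n * lrat K (φ t) x) / t) (𝓝[≠] 0)
          (𝓝 (n * psi K g (ν x))) := by
        have ht : Tendsto (fun t : ℝ => t) (𝓝[≠] 0) (𝓝 0) :=
          tendsto_nhdsWithin_of_tendsto_nhds tendsto_id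
        have h3 := ((h1.mul ht).add_const (psi K g (ν x))).const_mul (n : ℝ)
        rw [mul_zero, zero_add] at h3
        refine h3.congr' ?_
        filter_upwards [self_mem_nhdsWithin] with t ht0
        have : t ≠ 0 := ht0
        field_simp
        ring
      have h4 := exp_tendsto h2
      have h5 := (h1.const_mul (n : ℝ)).add h4
      have e : n * (χ (ν x) - qf K S g (ν x) / 2) + (n : ℝ) ^ 2 / 2 * psi K g (ν x) ^ 2 =
          n * (χ (ν x) - qf K S g (ν x) / 2) + (n * psi K g (ν x)) ^ 2 / 2 := by ring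
      rw [e]
      refine h5.congr fun t => ?_
      rw [hG]
      simp only
      ring
  refine hlim.congr' ?_
  have hev := hF.adm.filter_mono (nhdsWithin_le_nhds (s := {(0 : ℝ)}ᶜ))
  filter_upwards [hbound, hev] with t ht hadm
  have hei : Integrable (fun x => Real.exp (n * lrat K (φ t) x)) ρ := by
    apply Integrable.of_bound (C := Real.exp 1)
    · exact (Real.measurable_exp.comp
        ((lrat_measurable hK hadm).const_mul _)).aestronglyMeasurable
    · filter_upwards [ht] with x hx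
      rw [Real.norm_eq_abs, Real.abs_exp]
      exact Real.exp_le_exp.2 (le_of_abs_le hx.1)
  have hs1 : Integrable (fun x => Real.exp (n * lrat K (φ t) x) - 1) ρ :=
    hei.sub (integrable_const 1)
  have hs2 : Integrable (fun x => t * (n * psi K g (ν x))) ρ := (hψi.const_mul _).const_mul _
  rw [hG]
  simp only
  rw [integral_div, integral_sub hs1 hs2,
    integral_sub hei (integrable_const _), integral_const_mul, integral_const_mul,
    Vol_eq hn hK hadm]
  congr 2
  rw [integral_const, hρ]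
  simp only [smul_eq_mul, mul_one]
  rw [measureReal_restrict_apply_univ, Measure.real, evol_interior hK]
  rfl

end Vale.Agent.P227.Loc
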